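import Vale.Agent.P287D.Br.St
import Vale.Agent.P277Z.Lo.Mk
import Vale.Agent.P287Q.Mf.Var
import Vale.Agent.P287Q.Us.Bir
import Vale.Agent.P287T.Pj.Psh

/-!
# P287D, block BR: existence of the model, affine frames, projectivity
-/

set_option linter.style.haveILetI false

open scoped Manifold ContDiff ComplexOrder
open Set Filter Topology MvPolynomial
open Vale.Agent.P287Q Vale.Agent.P277Z Vale.Agent.P277Z.Lo
open Vale.Agent.P297 (Place)
open Vale.Agent.P269.Holo (HolOn)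
open Vale.Agent.P272.K (Cm Chart At cHess)

noncomputable section

namespace Vale.Agent.P287D.Br

variable {n : ℕ} {K : Type} [Field K] [Algebra ℂ K] {V : Var n}

theorem ex : EX := by
  intro n V
  letI := Mf.cs V.pv.dim
  haveI := Mf.isManifold V.pv.dim
  have hp := Mf.pres V.pv.dim
  haveI := V.pv.toMC.t2
  obtain ⟨q, hq, e⟩ := V.pv.exists_qm V.conn.nonempty
  haveI : SecondCountableTopology (Spc V.π V.A) :=
    ChartedSpace.secondCountable_of_sigmaCompact (Cm n) _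
  let G : Geo n 0 :=
    { W := Spc V.π V.A, F := univ, cpt := isCompact_univ, conn := isConnected_univ
      π := fun _ => 0, hol := fun _ _ i => i.elim0
      fib := .of_forall fun _ => iff_of_true rfl trivial }
  obtain ⟨K, _, _, ⟨G', val, h1, h2, h3, h4, h5, h6⟩, hM⟩ := mk n 0 G
  obtain rfl : G' = G := hM
  refine ⟨K, _, _, ⟨⟨⟨G, val, h1, h2, h3, h4, h5, h6⟩, q, hq, rfl, fun y hy f => ?_⟩⟩⟩
  change Hol n f (q y) ↔ _
  rw [e y hy]
  have hc := at_chartAt (n := n) (P269.Quo.mk (scl V.π) (⟨y, hy⟩ : V.A))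
  constructor
  · intro h
    obtain ⟨p, p1, p2⟩ := hp.prj ⟨y, hy⟩
    have p0 := p2.self_of_nhds
    have k := h _ hc
    rw [← p0] at k
    refine ⟨_, k.comp p1, ?_⟩
    have p3 := p2.and (hp.cont.continuousAt.eventually
      (chart_source_mem_nhds (Cm n) (P269.Quo.mk (scl V.π) (⟨y, hy⟩ : V.A))))
    rw [nhds_subtype, eventually_comap] at p3
    filter_upwards [p3] with s hs hA
    obtain ⟨a, b⟩ := hs ⟨s, hA⟩ rfl
    simp only [Function.comp] at a ⊢
    rw [a, e s hA, OpenPartialHomeomorph.left_inv _ b]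
  · rintro ⟨Φ, p1, p2⟩
    obtain ⟨σ, s1, s2, s3⟩ := hp.sec ⟨y, hy⟩
    refine Hol.of_chart hc ((AnalyticAt.comp_of_eq p1 s1 s2).congr ?_)
    have c := s1.continuousAt
    rw [ContinuousAt, s2] at c
    have c' := (tendsto_symm hc).eventually s3
    filter_upwards [c.eventually p2, c', (chartAt (Cm n) _).open_target.mem_nhds
      (mem_chart_target (Cm n) (P269.Quo.mk (scl V.π) (⟨y, hy⟩ : V.A)))] with z a b d
    rw [OpenPartialHomeomorph.right_inv _ d] at b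
    obtain ⟨b1, b2⟩ := b
    rw [← b2, ← e _ b1]
    exact (a b1).symm

/-- The chosen fields do not vanish. -/
def In (s : Sel V.π) (y : V.J → ℂ) : Prop := ∀ r, y (s.1 r) ≠ 0

/-- The affine coordinates. -/
def nm (s : Sel V.π) (y : V.J → ℂ) : V.J → ℂ := fun j => y j / y (s.1 (V.π j))

variable {s s' : Sel V.π} {y : V.J → ℂ} {t : V.R → ℂ} {d e : V.R → ℤ}
  {F G G' H : (V.J → ℂ) → ℂ}

theorem exists_in (hy : y ∈ V.A) : ∃ s : Sel V.π, In s y := by
  choose j h1 h2 using V.pv.sub hy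
  exact ⟨⟨j, h1⟩, h2⟩

theorem nm_eq : nm s y = scl V.π (fun r => y (s.1 r))⁻¹ y :=
  funext fun _ => div_eq_inv_mul _ _

theorem In.unit (h : In s y) : IsUnit fun r => y (s.1 r) := unit_iff.2 h

theorem In.scl_nm (h : In s y) : scl V.π (fun r => y (s.1 r)) (nm s y) = y := by
  rw [nm_eq, scl_scl_inv h.unit]

theorem nm_scl (ht : IsUnit t) : nm s (scl V.π t y) = nm s y := funext fun j => by
  simp only [nm, scl, s.2]
  exact mul_div_mul_left _ _ (unit_iff.1 ht _)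

theorem in_scl (ht : IsUnit t) : In s (scl V.π t y) ↔ In s y :=
  forall_congr' fun r => by simp only [scl, s.2, ne_eq, mul_eq_zero, unit_iff.1 ht r, false_or]

theorem In.mem (h : In s y) (hy : y ∈ V.A) : nm s y ∈ V.A :=
  nm_eq (s := s) ▸ V.pv.inv _ (unit_inv h.unit) y hy

theorem In.ev (h : In s y) : ∀ᶠ z in 𝓝 y, In s z :=
  eventually_all.2 fun r => (continuous_apply (s.1 r)).continuousAt.eventually_ne (h r)

theorem In.an (h : In s y) : AnalyticAt ℂ (nm s) y :=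
  analyticAt_pi_iff.2 fun j => ((ContinuousLinearMap.proj (R := ℂ) (φ := fun _ : V.J => ℂ) j).analyticAt
    y).div ((ContinuousLinearMap.proj (R := ℂ) (φ := fun _ : V.J => ℂ) (s.1 (V.π j))).analyticAt y)
    (h _)

theorem In.hol (h : In s y) (hy : y ∈ V.A) (hF : HolOn V.A F (nm s y)) :
    HolOn V.A (fun z => F (nm s z)) y :=
  hF.comp (.of_an h.an) hy (h.ev.mono fun _ a b => a.mem b)

theorem In.nm_sel (h : In s y) (r : V.R) : nm s y (s.1 r) = 1 := by
  simp only [nm, s.2]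
  exact div_self (h r)

theorem holOn_mul (h : HolOn V.A F y) (h' : HolOn V.A G y) : HolOn V.A (fun z => F z * G z) y :=
  let ⟨_, a, b⟩ := h
  let ⟨_, c, k⟩ := h'
  ⟨_, a.mul c, (b.and k).mono fun _ u v => congrArg₂ _ (u.1 v) (u.2 v)⟩

theorem holOn_add (h : HolOn V.A F y) (h' : HolOn V.A G y) : HolOn V.A (fun z => F z + G z) y :=
  let ⟨_, a, b⟩ := h
  let ⟨_, c, k⟩ := h'
  ⟨_, a.add c, (b.and k).mono fun _ u v => congrArg₂ _ (u.1 v) (u.2 v)⟩

theorem holOn_div (hy : y ∈ V.A) (h : HolOn V.A F y) (h' : HolOn V.A G y) (h0 : G y ≠ 0) :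
    HolOn V.A (fun z => F z / G z) y :=
  let ⟨_, a, b⟩ := h
  let ⟨_, c, k⟩ := h'
  ⟨_, a.div c (k.self_of_nhds hy ▸ h0), (b.and k).mono fun _ u v => congrArg₂ _ (u.1 v) (u.2 v)⟩

theorem an_crd (j : V.J) (y : V.J → ℂ) : AnalyticAt ℂ (fun z : V.J → ℂ => z j) y :=
  (ContinuousLinearMap.proj (R := ℂ) (φ := fun _ : V.J => ℂ) j).analyticAt y

namespace Sec

theorem eqv' (h : Sec V d F) (ht : IsUnit t) (hy : y ∈ V.A) : F (scl V.π t y) = cha d t * F y :=
  h.eqv t ht y hy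

theorem nm (h : Sec V d F) (hs : In s y) (hy : y ∈ V.A) :
    F y = cha d (fun r => y (s.1 r)) * F (nm s y) := by
  rw [← h.eqv' hs.unit (hs.mem hy), hs.scl_nm]

theorem nm_ne (h : Sec V d F) (hs : In s y) (hy : y ∈ V.A) : F (Br.nm s y) ≠ 0 ↔ F y ≠ 0 := by
  rw [h.nm hs hy, mul_ne_zero_iff, and_iff_right (cha_ne hs.unit)]

theorem scl_ne (h : Sec V d F) (ht : IsUnit t) (hy : y ∈ V.A) : F (scl V.π t y) ≠ 0 ↔ F y ≠ 0 := by
  rw [h.eqv' ht hy, mul_ne_zero_iff, and_iff_right (cha_ne ht)]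

theorem mul (h : Sec V d F) (h' : Sec V e G) : Sec V (d + e) fun z => F z * G z :=
  ⟨fun y hy => holOn_mul (h.hol y hy) (h'.hol y hy), fun t ht y hy => by
    rw [h.eqv t ht y hy, h'.eqv t ht y hy, mul_mul_mul_comm, ← Finset.prod_mul_distrib]
    exact congrArg (· * _) (Finset.prod_congr rfl fun r _ => (zpow_add₀ (unit_iff.1 ht r) _ _).symm)⟩

theorem add (h : Sec V d F) (h' : Sec V d G) : Sec V d fun z => F z + G z :=
  ⟨fun y hy => holOn_add (h.hol y hy) (h'.hol y hy), fun t ht y hy => by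
    rw [h.eqv t ht y hy, h'.eqv t ht y hy, mul_add]⟩

theorem const (c : ℂ) : Sec V 0 fun _ => c :=
  ⟨fun _ _ => .of_an analyticAt_const, fun _ _ _ _ => by simp⟩

theorem zero (d : V.R → ℤ) : Sec V d fun _ => 0 :=
  ⟨fun _ _ => .of_an analyticAt_const, fun _ _ _ _ => by simp⟩

theorem cast (h : Sec V d F) (k : d = e) : Sec V e F := k ▸ h

theorem congr (h : Sec V d F) (k : ∀ y ∈ V.A, G y = F y) : Sec V d G :=
  ⟨fun y hy => (h.hol y hy).congr (.of_forall k), fun t ht y hy => by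
    rw [k _ (V.pv.inv t ht y hy), k y hy, h.eqv t ht y hy]⟩

theorem prod {ι : Type*} (T : Finset ι) {d : ι → V.R → ℤ} {F : ι → (V.J → ℂ) → ℂ}
    (h : ∀ i ∈ T, Sec V (d i) (F i)) : Sec V (∑ i ∈ T, d i) fun z => ∏ i ∈ T, F i z := by
  classical
  induction T using Finset.induction_on with
  | empty => simpa using const 1
  | insert a T ha ih =>
    simp only [Finset.sum_insert ha, Finset.prod_insert ha]
    exact (h a (Finset.mem_insert_self _ _)).mul (ih fun i hi => h i (Finset.mem_insert_of_mem hi))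

theorem pow (h : Sec V d F) (k : ℕ) : Sec V (k • d) fun z => F z ^ k := by
  simpa using prod (Finset.range k) fun _ _ => h

theorem crd (j : V.J) : Sec V (Pi.single (V.π j) 1) fun z => z j :=
  ⟨fun y _ => .of_an (an_crd j y), fun t _ y _ => by
    rw [Finset.prod_eq_single (V.π j) (fun r _ h => by simp [h]) (by simp)]
    simp [scl]⟩

theorem frm {μ : V.R → ℕ} (h : Frm V.π μ F) : Sec V (fun r => μ r) F :=
  ⟨fun y _ => .of_an (h.an y), fun t ht y _ => by simpa using h.hom t ht y⟩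

theorem eval {p : MvPolynomial V.J ℂ} (h : WHom (bw V.π) d p) : Sec V d fun y => eval y p :=
  ⟨fun y _ => .of_an (analyticAt_pi_iff.1 (an_gv (fun _ : Unit => p) y) ()), fun _ ht y _ =>
    congrFun (gv_scl (g := fun _ : Unit => p) (fun _ => h) ht y) ()⟩

theorem sel (s : Sel V.π) (μ : V.R → ℕ) : Sec V (fun r => μ r) fun z => ∏ r, z (s.1 r) ^ μ r :=
  (prod Finset.univ fun r _ => (crd (s.1 r)).pow (μ r)).cast (funext fun r => by
    simp [s.2, Finset.sum_apply, Pi.single_apply])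

theorem ne_ne (h : Sec V d F) (h' : Sec V e G) (h0 : ∃ y ∈ V.A, F y ≠ 0)
    (h0' : ∃ y ∈ V.A, G y ≠ 0) : ∃ y ∈ V.A, F y * G y ≠ 0 :=
  let ⟨y, a, b, c⟩ := exists_ne_ne V.conn.isPreconnected V.mfd h.hol h0 h'.hol h0'
  ⟨y, a, mul_ne_zero b c⟩

end Sec

namespace Vm

variable (a : Vm V K)

theorem exists_pt (x : a.M.F) : ∃ y ∈ V.A, a.pt y = x :=
  let ⟨y, h, e⟩ := a.qm.surj x
  ⟨y, h, Subtype.ext e⟩

theorem pt_scl (hy : y ∈ V.A) (ht : IsUnit t) : a.pt (scl V.π t y) = a.pt y :=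
  Subtype.ext (a.qm.scl hy ht)

/-- The affine lift. -/
def lf (s : Sel V.π) : a.M.W → V.J → ℂ :=
  (a.qm.desc (f := nm s) fun _ ht _ _ => nm_scl ht).choose

theorem lf_q (hy : y ∈ V.A) : a.lf s (a.q y) = nm s y :=
  (a.qm.desc (f := nm s) fun _ ht _ _ => nm_scl ht).choose_spec y hy

theorem q_nm (hs : In s y) (hy : y ∈ V.A) : a.q (nm s y) = a.q y :=
  nm_eq (s := s) ▸ a.qm.scl hy (unit_inv hs.unit)

theorem hol_of (hy : y ∈ V.A) {f : a.M.W → ℂ} (hF : HolOn V.A F y)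
    (h : ∀ᶠ z in 𝓝 y, z ∈ V.A → f (a.q z) = F z) : Hol n f (a.q y) :=
  (a.hol y hy f).2 (hF.congr h)

theorem hol_lf (hs : In s y) (hy : y ∈ V.A) (hF : HolOn V.A F (nm s y)) :
    Hol n (fun x => F (a.lf s x)) (a.q y) :=
  a.hol_of hy (hs.hol hy hF) (.of_forall fun _ hz => by rw [a.lf_q hz])

theorem holOn {f : K} (hy : y ∈ V.A) (hf : f ∈ a.M.O (a.pt y)) :
    HolOn V.A (fun z => a.M.val f (a.q z)) y := (a.hol y hy _).1 hf

theorem ev_O {f : K} (hy : y ∈ V.A) (hf : f ∈ a.M.O (a.pt y)) :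
    ∀ᶠ z in 𝓝 y, z ∈ V.A → f ∈ a.M.O (a.pt z) := (a.qm.ev hy).1 (Hol.near hf)

/-- A property of all points over nearby points. -/
theorem ev_all (hy : y ∈ V.A) {p : (V.J → ℂ) → Prop} (h : ∀ᶠ z in 𝓝 y, z ∈ V.A → p z)
    (hp : ∀ t, IsUnit t → ∀ z ∈ V.A, p z → p (scl V.π t z)) :
    ∀ᶠ x in 𝓝 (a.q y), ∀ z ∈ V.A, a.q z = x → p z :=
  (a.qm.ev hy).2 (h.mono fun z hz hA w hw e => by
    obtain ⟨t, ht, rfl⟩ := (a.qm.eq_iff z hA w hw).1 e.symm
    exact hp t ht z hA (hz hA))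

theorem ev_in (hs : In s y) (hy : y ∈ V.A) : ∀ᶠ x in 𝓝 (a.q y), ∀ z ∈ V.A, a.q z = x → In s z :=
  a.ev_all hy (hs.ev.mono fun _ h _ => h) fun _ ht _ _ h => (in_scl ht).2 h

/-- The complement of the zero set of a nonzero section is generic. -/
theorem gen_of (hH : Sec V e H) (h0 : ∃ y ∈ V.A, H y ≠ 0) {p : a.M.W → Prop}
    (h : ∀ y ∈ V.A, H y ≠ 0 → p (a.q y)) : ∀ᶠ x in gen a.M.F, p x := by
  refine Lo.gen_iff.2 fun x hx => ?_
  obtain ⟨y, hy, rfl⟩ := a.qm.surj x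
  obtain ⟨s, hs⟩ := exists_in hy
  have h1 := hol_gen_ne (a.hol_lf hs hy (hH.hol _ (hs.mem hy))) fun k => by
    refine freq_ne V.conn.isPreconnected V.mfd hH.hol h0 hy ?_
    rw [eventually_nhdsWithin_iff]
    filter_upwards [(a.qm.ev hy).1 k, hs.ev] with z u v w
    rw [← hH.nm_ne v w, ← a.lf_q w, u w]
    simp
  filter_upwards [h1, gen_of_nhds (a.ev_in hs hy)] with x u v
  obtain ⟨z, hz, rfl⟩ := a.qm.surj x
  rw [a.lf_q hz, hH.nm_ne (v z hz rfl) hz] at u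
  exact h z hz u

theorem eq_of (hH : Sec V e H) (h0 : ∃ y ∈ V.A, H y ≠ 0) {f g : K}
    (h : ∀ y ∈ V.A, H y ≠ 0 → a.M.val f (a.q y) = a.M.val g (a.q y)) : f = g :=
  let ⟨y, _, _⟩ := h0
  a.M.eq_of_val (a.pt y) (a.M.at_pt (a.gen_of hH h0 h) _)

/-- The affine coordinates separate tangent vectors. -/
theorem imm (hs : In s y) (hy : y ∈ V.A) {c : Chart n a.M.W} (hc : At c (a.q y)) {v : Cm n}
    (h : ∀ j, fderiv ℂ (fun z => a.lf s (c.symm z) j) (c (a.q y)) v = 0) : v = 0 := by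
  have h1 : ∀ j, AnalyticAt ℂ (fun z => a.lf s (c.symm z) j) (c (a.q y)) := fun j =>
    a.hol_lf (F := fun z => z j) hs hy (.of_an (an_crd j _)) c hc
  have h2 := analyticAt_pi_iff.2 h1
  have h3 : ∀ k, Hol n (fun x => c x k) (a.q (nm s y)) := fun k => by
    rw [a.q_nm hs hy]
    refine Hol.of_chart hc (((ContinuousLinearMap.proj (R := ℂ) (φ := fun _ : Fin n => ℂ)
      k).analyticAt _).congr ?_)
    filter_upwards [c.open_target.mem_nhds (c.map_source hc.2)] with z hz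
    rw [c.right_inv hz]
    rfl
  obtain ⟨Φ, p1, p2⟩ := HolOn.pi fun k => (a.hol _ (hs.mem hy) _).1 (h3 k)
  have h4 : a.lf s (c.symm (c (a.q y))) = nm s y := by rw [c.left_inv hc.2, a.lf_q hy]
  have h5 : (fun z => Φ (a.lf s (c.symm z))) =ᶠ[𝓝 (c (a.q y))] id := by
    have k := h2.continuousAt
    rw [ContinuousAt] at k
    erw [h4] at k
    filter_upwards [k.eventually p2, (tendsto_symm hc).eventually (a.ev_in hs hy),
      c.open_target.mem_nhds (c.map_source hc.2)] with z u w hz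
    obtain ⟨x, hx, e⟩ := a.qm.surj (c.symm z)
    have u1 : a.lf s (c.symm z) = nm s x := by rw [← e, a.lf_q hx]
    erw [u1] at u
    rw [u1, ← u ((w x hx e).mem hx), a.q_nm (w x hx e) hx, e, c.right_inv hz]
    rfl
  rw [← h4] at p1
  have h6 := (HasFDerivAt.comp (f := fun z j => a.lf s (c.symm z) j) (c (a.q y))
    p1.differentiableAt.hasFDerivAt
    h2.differentiableAt.hasFDerivAt).fderiv
  have h7 : fderiv ℂ (fun z j => a.lf s (c.symm z) j) (c (a.q y)) v = 0 := by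
    rw [fderiv_pi fun j => (h1 j).differentiableAt]
    exact funext h
  have h8 := congrArg (· v) (h6.symm.trans (h5.fderiv_eq.trans fderiv_id))
  simpa [h7] using h8.symm

/-- The line bundle `O(d)`. -/
abbrev bd (d : V.R → ℤ) : P285.H281.FD.Bd a.M.W :=
  ⟨Sel V.π, fun s => {x | ∀ z ∈ V.A, a.q z = x → In s z},
    fun s s' x => cha d fun r => a.lf s x (s'.1 r)⟩

theorem mem_bd (hy : y ∈ V.A) : a.q y ∈ (a.bd d).U s ↔ In s y :=
  ⟨fun h => h y hy rfl, fun h => (a.ev_in h hy).self_of_nhds⟩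

theorem chg (hG : Sec V d G) (hy : y ∈ V.A) (hs : In s y) (hs' : In s' y) :
    G (nm s y) = cha d (fun r => nm s y (s'.1 r)) * G (nm s' y) := by
  have h : In s' (nm s y) := nm_eq (s := s) ▸ (in_scl (unit_inv hs.unit)).2 hs'
  rw [hG.nm h (hs.mem hy)]
  exact congrArg (fun z => _ * G z) (nm_eq (s := s) ▸ nm_scl (unit_inv hs.unit))

theorem lb (d : V.R → ℤ) : a.M.LB (a.bd d) where
  isOpen s := isOpen_iff_mem_nhds.2 fun x hx => by
    obtain ⟨y, hy, rfl⟩ := a.qm.surj x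
    exact a.ev_in (hx y hy rfl) hy
  cover x _ := by
    obtain ⟨y, hy, rfl⟩ := a.qm.surj x
    exact (exists_in hy).imp fun s hs => (a.mem_bd hy).2 hs
  holo s s' x h h' := by
    obtain ⟨y, hy, rfl⟩ := a.qm.surj x
    exact a.hol_lf (F := fun z => cha d fun r => z (s'.1 r)) (h y hy rfl) hy (.of_an
      (an_cha (analyticAt_pi_iff.2 fun r => an_crd _ _)
        (unit_iff.2 fun r => div_ne_zero (h' y hy rfl r) (h y hy rfl _))))
  ne_zero s s' x h h' := by
    obtain ⟨y, hy, rfl⟩ := a.qm.surj x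
    simp only [a.lf_q hy]
    exact cha_ne (unit_iff.2 fun r => div_ne_zero (h' y hy rfl r) (h y hy rfl _))
  cocycle s s' s'' x h h' h'' := by
    obtain ⟨y, hy, rfl⟩ := a.qm.surj x
    simp only [a.lf_q hy, cha, ← Finset.prod_mul_distrib, ← mul_zpow, nm, s'.2, s''.2]
    refine Finset.prod_congr rfl fun r _ => ?_
    rw [mul_comm, div_mul_div_cancel₀ (h' y hy rfl r)]

theorem posB : a.M.PosB (a.bd 1) := by
  have hS : ∀ γ : Sel V.π, Sec V 1 fun z => ∏ r, z (γ.1 r) := fun γ => by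
    simpa [Pi.one_def] using Sec.sel γ 1
  refine ⟨fun s x => Real.log (∑ γ : Sel V.π, ‖∏ r, a.lf s x (γ.1 r)‖ ^ 2), a.lb 1,
    fun s x h c hc => ?_, fun s s' x h h' => ?_⟩
  · obtain ⟨y, hy, rfl⟩ := a.qm.surj x
    have hs := h y hy rfl
    have h1 : ∀ γ : Sel V.π, AnalyticAt ℂ (fun z => ∏ r, a.lf s (c.symm z) (γ.1 r)) (c (a.q y)) :=
      fun γ => a.hol_lf hs hy ((hS γ).hol _ (hs.mem hy)) c hc
    have h2 : ∀ᶠ z in 𝓝 (c (a.q y)), ∀ r, a.lf s (c.symm z) (s.1 r) = 1 := by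
      filter_upwards [(tendsto_symm hc).eventually (a.ev_in hs hy)] with z w r
      obtain ⟨x, hx, e⟩ := a.qm.surj (c.symm z)
      rw [← e, a.lf_q hx, (w x hx e).nm_sel]
    have h3 : (fun z => ∏ r, a.lf s (c.symm z) (s.1 r)) =ᶠ[𝓝 (c (a.q y))] fun _ => 1 :=
      h2.mono fun z w => Finset.prod_eq_one fun r _ => w r
    refine ⟨ContDiffAt.log (ContDiffAt.sum fun γ _ =>
      ((h1 γ).contDiffAt.restrict_scalars ℝ).norm_sq ℂ) (ne_of_gt ?_),
      P287T.Pj.fs_pos h1 ⟨s, h3.self_of_nhds.trans_ne one_ne_zero⟩ fun v hv => a.imm hs hy hc fun j => ?_⟩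
    · refine Finset.sum_pos' (fun _ _ => sq_nonneg _) ⟨s, Finset.mem_univ _, ?_⟩
      rw [show ∏ r, a.lf s (c.symm (c (a.q y))) (s.1 r) = 1 from h3.self_of_nhds]
      simp
    · let γ : Sel V.π := ⟨Function.update s.1 (V.π j) j, fun r => by
        by_cases k : r = V.π j
        · subst k; simp
        · simp [k, s.2]⟩
      have h4 : (fun z => ∏ r, a.lf s (c.symm z) (γ.1 r)) =ᶠ[𝓝 (c (a.q y))]
          fun z => a.lf s (c.symm z) j := h2.mono fun z w => by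
        simp only
        rw [Finset.prod_eq_single (V.π j) (fun r _ k => by simp [γ, k, w]) (by simp)]
        simp [γ]
      have h5 := hv s γ
      rw [h3.fderiv_eq, h4.fderiv_eq, show ∏ r, a.lf s (c.symm (c (a.q y))) (s.1 r) = 1 from
        h3.self_of_nhds] at h5
      simpa using h5
  · obtain ⟨y, hy, rfl⟩ := a.qm.surj x
    have h1 := (a.lb 1).ne_zero s s' _ h h'
    have h2 : 0 < ∑ γ : Sel V.π, ‖∏ r, nm s' y (γ.1 r)‖ ^ 2 :=
      Finset.sum_pos' (fun _ _ => sq_nonneg _) ⟨s', Finset.mem_univ _, by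
        simp [(h' y hy rfl).nm_sel]⟩
    simp only [a.lf_q hy] at h1 ⊢
    rw [← Real.log_mul h2.ne' (pow_ne_zero _ (norm_ne_zero_iff.2 h1)), Finset.sum_mul]
    refine congrArg _ (Finset.sum_congr rfl fun γ _ => ?_)
    rw [chg (hS γ) hy (h y hy rfl) (h' y hy rfl), norm_mul, mul_pow, mul_comm]

theorem proj : a.M.Proj := ⟨_, a.posB⟩

end Vm

theorem prj : PRJ := fun _ _ _ _ _ a => a.proj

end Vale.Agent.P287D.Br
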