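import Vale.Agent.P287D.Nc.RkR
import Vale.Agent.P287D.Nc.Bas
import Vale.Agent.P287D.Bm.Pl
import Vale.Agent.P287D.Br.Bas

/-!
# P287D, block BR: specialisation of generic points
-/

open Set MvPolynomial
open Vale.Agent.P287Q Vale.Agent.P287D.Nc

noncomputable section

namespace Vale.Agent.P287D.Br

section alg

variable {σ K K' : Type} [Field K] [Algebra ℂ K] [Field K'] [Algebra ℂ K'] {w : σ → K} {w' : σ → K'}

theorem exists_spc (h : ∀ u : MvPolynomial σ ℂ, aeval w u = 0 → aeval w' u = 0) :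
    ∃ ψ : (aeval w : MvPolynomial σ ℂ →ₐ[ℂ] K).range →ₐ[ℂ] K',
      ∀ u, ψ ⟨aeval w u, u, rfl⟩ = aeval w' u :=
  ⟨AlgHom.liftOfSurjective _ (aeval w).rangeRestrict_surjective (aeval w')
    fun u hu => h u (congrArg Subtype.val hu),
    fun u => AlgHom.liftOfSurjective_apply _ (aeval w).rangeRestrict_surjective _ _ u⟩

theorem exists_emb (h : ∀ u : MvPolynomial σ ℂ, aeval w u = 0 ↔ aeval w' u = 0)
    (ht : IntermediateField.adjoin ℂ (range w) = ⊤) : ∃ φ : K →ₐ[ℂ] K', ∀ i, φ (w i) = w' i := by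
  obtain ⟨ψ, hψ⟩ := exists_spc fun u => (h u).1
  have : IsFractionRing (aeval w : MvPolynomial σ ℂ →ₐ[ℂ] K).range K := .of_field _ _ fun z =>
    let ⟨r, s, e⟩ := (IntermediateField.mem_adjoin_range_iff ℂ w z).1 (ht.ge trivial)
    ⟨⟨_, r, rfl⟩, ⟨_, s, rfl⟩, e⟩
  have hi : Function.Injective ψ := (injective_iff_map_eq_zero ψ).2 fun ⟨_, u, e⟩ k => by
    subst e
    exact Subtype.ext ((h u).2 ((hψ u).symm.trans k))
  refine ⟨IsFractionRing.liftAlgHom hi, fun i => ?_⟩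
  have k := IsFractionRing.lift_algebraMap (K := K) (g := ψ.toRingHom) hi ⟨aeval w (X i), X i, rfl⟩
  exact (congrArg _ (aeval_X w i).symm).trans (k.trans ((hψ (X i)).trans (aeval_X w' i)))

open scoped IntermediateField.algebraAdjoinAdjoin in
theorem trdeg_adjoin (s : Set K) :
    Algebra.trdeg ℂ (IntermediateField.adjoin ℂ s) = Algebra.trdeg ℂ (Algebra.adjoin ℂ s) := by
  rw [← trdeg_add_eq ℂ (Algebra.adjoin ℂ s) (A := IntermediateField.adjoin ℂ s),
    trdeg_eq_zero (R := Algebra.adjoin ℂ s), add_zero]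

theorem trdeg_spc (h : ∀ u : MvPolynomial σ ℂ, aeval w u = 0 → aeval w' u = 0) :
    Algebra.trdeg ℂ (IntermediateField.adjoin ℂ (range w')) ≤ Algebra.trdeg ℂ K ∧
      ∀ u : MvPolynomial σ ℂ, aeval w' u = 0 → aeval w u ≠ 0 →
        Algebra.trdeg ℂ (IntermediateField.adjoin ℂ (range w')) + 1 ≤ Algebra.trdeg ℂ K := by
  obtain ⟨ψ, hψ⟩ := exists_spc h
  obtain ⟨t, ht⟩ := exists_isTranscendenceBasis ℂ (Algebra.adjoin ℂ (range w'))
  choose p hp using fun i : t => (Algebra.adjoin_range_eq_range_aeval ℂ w').le i.1.2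
  have h1 : AlgebraicIndependent ℂ fun i => ψ ⟨aeval w (p i), p i, rfl⟩ :=
    (funext fun i => (hψ _).trans (hp i)).symm ▸ ht.1.map' (f := Subalgebra.val _) Subtype.val_injective
  rw [trdeg_adjoin, ← ht.cardinalMk_eq_trdeg]
  refine ⟨((AlgebraicIndependent.of_comp ψ h1).map' (f := Subalgebra.val _)
    Subtype.val_injective).cardinalMk_le_trdeg, fun u k1 k2 => ?_⟩
  have h2 := Bm.drop ψ h1 (b := ⟨aeval w u, u, rfl⟩) (fun e => k2 (congrArg Subtype.val e))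
    ((hψ u).trans k1)
  simpa using (h2.map' (f := Subalgebra.val _) Subtype.val_injective).cardinalMk_le_trdeg

end alg

section pts

variable {J R K : Type} [Field K] [Algebra ℂ K] {π : J → R} {s : Sel π} {ξ : J → K}

/-- The affine coordinates of a point with values in a field. -/
def nk (s : Sel π) (ξ : J → K) : J → K := fun j => ξ j / ξ (s.1 (π j))

omit [Algebra ℂ K] in
theorem sim_nk (h : ∀ r, ξ (s.1 r) ≠ 0) : Sim π ξ (nk s ξ) :=
  ⟨fun r => (ξ (s.1 r))⁻¹, fun r => inv_ne_zero (h r), fun _ => div_eq_inv_mul _ _⟩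

omit [Algebra ℂ K] in
theorem nk_div (h : ∀ r, ξ (s.1 r) ≠ 0) {j j' : J} (e : π j = π j') :
    nk s ξ j / nk s ξ j' = ξ j / ξ j' := by
  rw [nk, nk, e, div_div_div_cancel_right₀ (h _)]

theorem fl_eq (h : ∀ r, ξ (s.1 r) ≠ 0) : fl π ξ = IntermediateField.adjoin ℂ (range (nk s ξ)) :=
  le_antisymm (IntermediateField.adjoin_le_iff.2 fun _ ⟨j, j', e, k⟩ => by
    rw [k, ← nk_div h e]
    exact div_mem (IntermediateField.subset_adjoin _ _ ⟨j, rfl⟩)
      (IntermediateField.subset_adjoin _ _ ⟨j', rfl⟩))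
    (IntermediateField.adjoin_le_iff.2 (range_subset_iff.2 fun _ => div_mem_fl ξ (s.2 _).symm))

omit [Algebra ℂ K] in
theorem exists_sel (h : Nc.Nz π ξ) : ∃ s : Sel π, ∀ r, ξ (s.1 r) ≠ 0 := by
  choose j h1 h2 using h
  exact ⟨⟨j, h1⟩, h2⟩

theorem aeval_scl [Fintype J] [Fintype R] [DecidableEq R] {t : R → K} (a : ∀ r, t r ≠ 0)
    {δ : R → ℤ} {g : MvPolynomial J ℂ} (hg : WHom (bw π) δ g) :
    aeval (fun j => t (π j) * ξ j) g = (∏ r, t r ^ δ r) * aeval ξ g := by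
  rw [aeval_def, aeval_def, eval₂_eq', eval₂_eq', Finset.mul_sum]
  refine Finset.sum_congr rfl fun α hα => ?_
  simp only [mul_pow, Finset.prod_mul_distrib]
  suffices e : ∏ j, t (π j) ^ α j = ∏ r, t r ^ δ r by rw [e, mul_left_comm]
  simp only [← hg α hα]
  have k : ∀ r (s : Finset J) (f : J → ℤ), t r ^ ∑ j ∈ s, f j = ∏ j ∈ s, t r ^ f j := fun r s f => by
    induction s using Finset.cons_induction with
    | empty => simp
    | cons j s hj ih => rw [Finset.sum_cons, Finset.prod_cons, zpow_add₀ (a r), ih]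
  simp only [k]
  rw [Finset.prod_comm]
  refine Finset.prod_congr rfl fun j _ => ?_
  rw [Finset.prod_eq_single (π j) (fun r _ h => by simp [bw, h]) (by simp)]
  simp [bw]

theorem aeval_nk [Fintype J] [Fintype R] [DecidableEq R] (h : ∀ r, ξ (s.1 r) ≠ 0)
    {δ : R → ℤ} {g : MvPolynomial J ℂ} (hg : WHom (bw π) δ g) :
    aeval (nk s ξ) g = (∏ r, (ξ (s.1 r))⁻¹ ^ δ r) * aeval ξ g :=
  (congrArg (aeval · g) (funext fun _ => div_eq_inv_mul _ _)).trans
    (aeval_scl (t := fun r => (ξ (s.1 r))⁻¹) (fun r => inv_ne_zero (h r)) hg)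

/-- Homogenisation in an affine frame. -/
theorem exists_frm [Fintype J] [Fintype R] [DecidableEq R] (s : Sel π) (u : MvPolynomial J ℂ) :
    ∃ (N : ℕ) (g : MvPolynomial J ℂ), WHom (bw π) (N • ∑ j, bw π (s.1 (π j))) g ∧
      ∀ (K : Type) [Field K] [Algebra ℂ K] (z : J → K), (∀ r, z (s.1 r) ≠ 0) →
        aeval z g = (∏ j, z (s.1 (π j))) ^ N * aeval (nk s z) u :=
  let ⟨N, g, a, b⟩ := exists_hom (π := π) id (fun j => s.1 (π j)) (fun _ => (s.2 _).symm) u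
  ⟨N, g, a, fun K _ _ z hz => b K z fun _ => hz _⟩

end pts

variable {n : ℕ} {V : Var n} {K K' : Type} [Field K] [Algebra ℂ K] [Field K'] [Algebra ℂ K']
  {ξ : V.J → K} {ξ' : V.J → K'} {s : Sel V.π}

theorem in_of_pt (k : Pt V ξ) (h : ∀ r, ξ (s.1 r) ≠ 0) : ∃ y ∈ V.A, In s y := by
  by_contra! e
  have h1 := k.van _ (∏ r, X (s.1 r)) (whom_iff.2 (IsWeightedHomogeneous.prod Finset.univ _ _
    fun r _ => isWeightedHomogeneous_X ℂ (bw V.π) (s.1 r))) fun y hy => by_contra fun u =>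
      e y hy fun r => by
        simp only [map_prod, eval_X] at u
        exact Finset.prod_ne_zero_iff.1 u r (by simp)
  simp only [map_prod, aeval_X] at h1
  exact Finset.prod_ne_zero_iff.2 (fun r _ => h r) h1

theorem ne_of_in (h : Gq V ξ) (h0 : ∃ y ∈ V.A, In s y) (r : V.R) : ξ (s.1 r) ≠ 0 :=
  let ⟨_, a, b⟩ := h0
  h.ne a (b r)

theorem ker_le (h : Gq V ξ) (k : Pt V ξ') (h1 : ∀ r, ξ' (s.1 r) ≠ 0) (u : MvPolynomial V.J ℂ)
    (e : aeval (nk s ξ) u = 0) : aeval (nk s ξ') u = 0 := by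
  obtain ⟨N, g, a, b⟩ := exists_frm s u
  have h2 := k.van _ g a (h.gen _ g a (by rw [b K ξ (ne_of_in h (in_of_pt k h1)), e, mul_zero]))
  exact (mul_eq_zero.1 ((b K' ξ' h1).symm.trans h2)).resolve_left
    (pow_ne_zero _ (Finset.prod_ne_zero_iff.2 fun _ _ => h1 _))

/-- The function field maps to the field of any generic point. -/
theorem exists_gp_hom (h : Gp V ξ) (k : Gq V ξ') : ∃ φ : K →ₐ[ℂ] K',
    (∀ j j', V.π j = V.π j' → φ (ξ j / ξ j') = ξ' j / ξ' j') ∧ φ.fieldRange = fl V.π ξ' := by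
  obtain ⟨s, h1⟩ := exists_sel k.nz
  have h0 := ne_of_in h.toGq (in_of_pt k.toPt h1)
  obtain ⟨φ, hφ⟩ := exists_emb (fun u => ⟨ker_le h.toGq k.toPt h1 u, ker_le k h.toPt h0 u⟩)
    ((fl_eq h0).symm.trans h.top)
  refine ⟨φ, fun j j' e => by rw [← nk_div h0 e, map_div₀, hφ, hφ, nk_div h1 e], ?_⟩
  rw [AlgHom.fieldRange_eq_map, ← h.top, fl_eq h0, fl_eq h1, IntermediateField.adjoin_map,
    ← range_comp]
  exact congrArg (fun f => IntermediateField.adjoin ℂ (range f)) (funext hφ)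

theorem exists_gp_iso (h : Gp V ξ) (k : Gp V ξ') : ∃ φ : K ≃ₐ[ℂ] K',
    ∀ j j', V.π j = V.π j' → φ (ξ j / ξ j') = ξ' j / ξ' j' :=
  let ⟨φ, a, b⟩ := exists_gp_hom h k.toGq
  ⟨AlgEquiv.ofBijective φ ⟨φ.injective, fun _ => (b.trans k.top).ge trivial⟩, a⟩

theorem dim_of (h : Gp V ξ) (hK : FF K n) (k : Pt V ξ') : Algebra.trdeg ℂ (fl V.π ξ') ≤ n ∧
    (Algebra.trdeg ℂ (fl V.π ξ') = n → Gq V ξ') := by
  obtain ⟨s, h1⟩ := exists_sel k.nz
  have h0 := ne_of_in h.toGq (in_of_pt k h1)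
  have h2 := trdeg_spc (ker_le h.toGq k h1)
  rw [← fl_eq h1, Bm.trdeg_eq hK] at h2
  refine ⟨h2.1, fun e => ⟨k, fun δ g a b => h.gen δ g a (by_contra fun c => ?_)⟩⟩
  have h3 := h2.2 g (by rw [aeval_nk h1 a, b, mul_zero]) (by
    rw [aeval_nk h0 a]
    exact mul_ne_zero (Finset.prod_ne_zero_iff.2 fun r _ => zpow_ne_zero _ (inv_ne_zero (h0 r))) c)
  rw [e] at h3
  norm_cast at h3
  omega

end Vale.Agent.P287D.Br
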