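import Vale.Agent.P277Z.F5.Sk
import Vale.Agent.P287Q.Top.St
import Vale.Agent.P287Q.Pv.Of

/-!
# P287D, block BR: varieties given by multicones as models of their function field. Statements.
-/

open Set Filter Topology MvPolynomial
open Vale.Agent.P287Q Vale.Agent.P277Z
open Vale.Agent.P297 (Place)
open Vale.Agent.P269.Holo (HolOn)

noncomputable section

namespace Vale.Agent.P287D.Br

variable {n m : ℕ} {K L : Type} [Field K] [Algebra ℂ K] [Field L] [Algebra ℂ L]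

/-- The variety `V` as a model of the field `K`. -/
structure Vm (V : Var n) (K : Type) [Field K] [Algebra ℂ K] where
  /-- the model -/
  M : Mdl n 0 K
  /-- the point given by a point of the multicone -/
  q : (V.J → ℂ) → M.W
  qm : Qm V.π V.A n q
  all : M.F = univ
  hol : ∀ y ∈ V.A, ∀ f, Hol n f (q y) ↔ HolOn V.A (fun z => f (q z)) y

/-- A holomorphic section of `O(d)`. -/
structure Sec (V : Var n) (d : V.R → ℤ) (F : (V.J → ℂ) → ℂ) : Prop where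
  hol : ∀ y ∈ V.A, HolOn V.A F y
  eqv : ∀ t, IsUnit t → ∀ y ∈ V.A, F (scl V.π t y) = (∏ r, t r ^ d r) * F y

namespace Vm

variable {V : Var n} (a : Vm V K)

/-- The point of the model. -/
def pt (y : V.J → ℂ) : a.M.F := ⟨a.q y, a.all ▸ mem_univ _⟩

/-- `f` is the quotient `G / G'`. -/
def Is (f : K) (G G' : (V.J → ℂ) → ℂ) : Prop :=
  ∀ y ∈ V.A, G' y ≠ 0 → f ∈ a.M.O (a.pt y) ∧ a.M.val f (a.q y) = G y / G' y

/-- `D` is the divisor of zeros of the section `F`. -/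
def IsDiv (F : (V.J → ℂ) → ℂ) (D : P277Z.Div K) : Prop :=
  a.M.Dv D ∧ ∀ y ∈ V.A, ∃ (t : K) (u : (V.J → ℂ) → ℂ), t ∈ a.M.O (a.pt y) ∧ t ≠ 0 ∧
    HolOn V.A u y ∧ u y ≠ 0 ∧ (∀ᶠ z in 𝓝 y, z ∈ V.A → F z = u z * a.M.val t (a.q z)) ∧
    ∀ P, a.M.On (a.pt y) P → D P = P.ord t

end Vm

/-- The modification `μ` is the projection `p`. -/
def Ov {Y X : Var n} (p : Ext Y X) (b : Vm Y K) (a : Vm X K) (μ : Mod b.M a.M) : Prop :=
  ∀ y ∈ Y.A, μ.g (b.q y) = a.q (y ∘ p.iJ)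

/-- The projection `p` induces the identity of the function field. -/
def Over {Y X : Var n} (p : Ext Y X) (b : Vm Y K) (a : Vm X K) : Prop := ∃ μ, Ov p b a μ

/-- `g` is the restriction of `f` along `p`, at the points where `f` is holomorphic. -/
def Rstr {Z : Var m} {Y : Var n} (p : Ext Z Y) (z : Vm Z L) (a : Vm Y K) (f : K) (g : L) : Prop :=
  ∀ y ∈ Z.A, f ∈ a.M.O (a.pt (y ∘ p.iJ)) →
    g ∈ z.M.O (z.pt y) ∧ z.M.val g (z.q y) = a.M.val f (a.q (y ∘ p.iJ))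

/-- `res` is a residue map of the place `P` onto the field `L`. -/
structure Rs (P : Place K) (res : K → L) : Prop where
  add : ∀ f ∈ P.ring, ∀ g ∈ P.ring, res (f + g) = res f + res g
  mul : ∀ f ∈ P.ring, ∀ g ∈ P.ring, res (f * g) = res f * res g
  const : ∀ c, res (algebraMap ℂ K c) = algebraMap ℂ L c
  zero : ∀ f ∈ P.ring, res f = 0 ↔ f = 0 ∨ 0 < P.ord f
  surj : ∀ u, ∃ f ∈ P.ring, res f = u

/-- Towers of blow-ups with their projection. -/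
inductive Tw (Y₀ : Var n) : (Y : Var n) → Ext Y Y₀ → Prop
  | refl : Tw Y₀ Y₀ (Ext.refl Y₀)
  | step {Y : Var n} {p : Ext Y Y₀} (h : Tw Y₀ Y p) (c : Ctr Y) : Tw Y₀ c.bl (c.down.comp p)

theorem Tw.tow {Y₀ Y : Var n} {p : Ext Y Y₀} (h : Tw Y₀ Y p) : Tow Y₀ Y := by
  induction h with
  | refl => exact .refl
  | step _ c ih => exact .step ih c

/-- A statement for all varieties with a model. -/
def ForV (P : ∀ (n : ℕ) (V : Var n) (K : Type) [Field K] [Algebra ℂ K], Vm V K → Prop) : Prop :=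
  ∀ (n : ℕ) (V : Var n) (K : Type) [Field K] [Algebra ℂ K] (a : Vm V K), P n V K a

/-- **EX**: the function field exists -/
def EX : Prop := ∀ (n : ℕ) (V : Var n), ∃ (K : Type) (_ : Field K) (_ : Algebra ℂ K),
  Nonempty (Vm V K)

/-- **PRJ**: the model is projective -/
def PRJ : Prop := ForV fun _ _ _ _ _ a => a.M.Proj

/-- **RAT**: quotients of sections are rational functions; sections have divisors -/
def RAT : Prop := ForV fun _ V _ _ _ a => ∀ d G', Sec V d G' → (∃ y ∈ V.A, G' y ≠ 0) →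
  (∀ G, Sec V d G → ∃ f, a.Is f G G') ∧ ∃ D, a.IsDiv G' D ∧ IsInt D ∧ 0 ≤ D ∧
    ((∀ r, 0 < d r) → a.M.Amp D) ∧ ((∀ r, 0 ≤ d r) → ∀ x, a.M.Free D x) ∧
    ∀ G D' f, Sec V d G → a.IsDiv G D' → a.Is f G G' → f ≠ 0 ∧ D' = D + a.M.div f

/-- **SECF**: the sections of a divisor -/
def SECF : Prop := ForV fun _ V _ _ _ a => ∀ d F D f, Sec V d F → a.IsDiv F D → f ∈ a.M.H0 D →
  ∃ G, Sec V d G ∧ a.Is f G F ∧ ∀ y ∈ V.A,
    (G y ≠ 0 ↔ f ≠ 0 ∧ ∀ P, a.M.On (a.pt y) P → (P.ord f : ℝ) + D P = 0)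

/-- **LOQ**: functions which are holomorphic at a point are quotients of sections -/
def LOQ : Prop := ForV fun _ V K _ _ a => ∀ (ι : Type) [Fintype ι] (f : ι → K), ∀ y ∈ V.A,
  ∃ (d : V.R → ℤ) (G : ι → (V.J → ℂ) → ℂ) (G' : (V.J → ℂ) → ℂ), (∀ i, Sec V d (G i)) ∧
    Sec V d G' ∧ (∃ z ∈ V.A, G' z ≠ 0) ∧ (∀ i, a.Is (f i) (G i) G') ∧
    ((∀ i, f i ∈ a.M.O (a.pt y)) → G' y ≠ 0)

/-- **GEN**: rational functions are quotients of forms -/
def GEN : Prop := ForV fun _ V _ _ _ a => ∀ f, ∃ δ P Q, WHom (bw V.π) δ P ∧ WHom (bw V.π) δ Q ∧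
  (∃ y ∈ V.A, eval y Q ≠ 0) ∧ a.Is f (fun y => eval y P) fun y => eval y Q

/-- **UP**: birational projections, upwards -/
def UP : Prop := ForV fun n X K _ _ a => ∀ (Y : Var n) (p : Ext Y X), p.Bir →
  ∃ b : Vm Y K, Over p b a

/-- **DOWN**: birational projections, downwards -/
def DOWN : Prop := ForV fun n Y K _ _ b => ∀ (X : Var n) (p : Ext Y X), p.Bir →
  ∃ a : Vm X K, Over p b a

/-- **CMP**: composites, isomorphisms, uniqueness -/
structure CMP : Prop where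
  refl : ForV fun _ V _ _ _ a => Over (Ext.refl V) a a
  comp : ForV fun n X K _ _ a => ∀ (Y Z : Var n) (p : Ext Y X) (q : Ext Z Y) (b : Vm Y K)
    (c : Vm Z K), Over p b a → Over q c b → Over (q.comp p) c a
  iso : ForV fun n X K _ _ a => ∀ (Y : Var n) (p : Ext Y X) (b : Vm Y K), p.Iso → Over p b a →
    Nonempty (Mod a.M b.M) ∧ (∀ y ∈ Y.A, b.M.O (b.pt y) = a.M.O (a.pt (y ∘ p.iJ))) ∧
      ∀ P, b.M.Pr P ↔ a.M.Pr P

/-- **RES**: restriction of rational functions along a projection -/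
def RES : Prop := ForV fun _ Y _ _ _ a => ∀ (m : ℕ) (Z : Var m) (p : Ext Z Y) (L : Type) [Field L]
  [Algebra ℂ L] (z : Vm Z L) (f : _), (∃ y ∈ Z.A, f ∈ a.M.O (a.pt (y ∘ p.iJ))) →
    ∃! g, Rstr p z a f g

/-- **BLW**: the exceptional divisor of a blow-up -/
def BLW : Prop := ForV fun n Y K _ _ a => ∀ (c : Ctr Y) (b : Vm c.bl K), Over c.down b a →
  ∃ E, Exc b.M a.M = {E} ∧ b.M.Snc {E} ∧ (∀ w ∈ c.bl.A, b.M.On (b.pt w) E ↔ w ∘ .inl ∈ c.C) ∧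
    (∀ y ∈ Y.A, a.M.Ct (a.pt y) E ↔ y ∈ c.C) ∧
    Sec c.bl (fun o => o.elim (-1) c.δ) (blE c.g) ∧ b.IsDiv (blE c.g) (Finsupp.single E 1) ∧
    (∀ g κ κ', a.M.Can g κ → b.M.Can g κ' →
      κ' - a.M.pull b.M κ = Finsupp.single E ((n - c.m - 1 : ℕ) : ℝ)) ∧
    ∀ (L : Type) [Field L] [Algebra ℂ L] (z : Vm c.Z L),
      ∃ res : K → FractionRing (MvPolynomial (Fin (n - c.m - 1)) L), Rs E res ∧
        ∀ f g, (∃ y ∈ c.C, f ∈ a.M.O (a.pt y)) → Rstr c.inc z a f g →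
          res f = algebraMap L _ g

/-- **DOM**: towers dominate every model -/
def DOM : Prop := ForV fun n V K _ _ a => ∀ M₁ : Mdl n 0 K, M₁.Proj →
  ∃ (U : Var n) (p : Ext U V) (b : Vm U K), Tw V U p ∧ Over p b a ∧ Nonempty (Mod b.M M₁)

/-- Every effective divisor is the divisor of a section of some `O(d)`. -/
def Chr {V : Var n} (a : Vm V K) : Prop :=
  ∀ D, a.M.Dv D → IsInt D → 0 ≤ D → ∃ d F, Sec V d F ∧ a.IsDiv F D

/-- **TW2**: a tower over `V` with a morphism to `V'` -/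
def TW2 : Prop := ForV fun n V K _ _ a => Chr a → ∀ (V' : Var n) (a' : Vm V' K),
  ∃ (W : Var n) (ι : Ext W V) (Γ : Var n) (q : Ext Γ W) (p : Ext Γ V') (w : Vm W K) (b : Vm Γ K),
    Tw V W ι ∧ q.Iso ∧ q.Bir ∧ p.Bir ∧ Over ι w a ∧ Over q b w ∧ Over p b a'

/-- **ALG**: projective models are varieties -/
def ALG : Prop := ∀ (n : ℕ) (K : Type) [Field K] [Algebra ℂ K] (M : Mdl n 0 K), M.Proj →
  ∃ (V : Var n) (a : Vm V K), Nonempty (Mod a.M M) ∧ Nonempty (Mod M a.M) ∧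
    ∀ P, a.M.Pr P ↔ M.Pr P

/-- **GRF**: graphs of holomorphic maps -/
def GRF : Prop := ForV fun n V _ _ _ a => ∀ (m : ℕ) (Z₀ : Var m) (L : Type) [Field L] [Algebra ℂ L]
  (z₀ : Vm Z₀ L) (h : z₀.M.W → a.M.W), Continuous h →
  (∀ y f, Hol n f (h y) → Hol m (fun w => f (h w)) y) →
  ∃ (Z : Var m) (p : Ext Z V) (p₀ : Ext Z Z₀) (q : (Z.J → ℂ) → z₀.M.W) (_ : Qm Z.π Z.A m q)
    (_ : ∀ y ∈ Z.A, ∀ f, Hol m f (q y) ↔ HolOn Z.A (fun z => f (q z)) y),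
    ∀ w ∈ Z.A, q w = z₀.q (w ∘ p₀.iJ) ∧ a.q (w ∘ p.iJ) = h (q w)

/-- **SUBV**: a smooth prime divisor, and a resolution of any prime divisor, as a variety -/
def SUBV : Prop := ∀ (n : ℕ) (V : Var (n + 1)) (K : Type) [Field K] [Algebra ℂ K] (a : Vm V K)
  (P : Place K), a.M.Pr P → ∃ (Z : Var n) (p : Ext Z V) (L : Type) (_ : Field L) (_ : Algebra ℂ L)
    (z : Vm Z L) (res : K → L), Rs P res ∧
    (∀ y ∈ V.A, a.M.On (a.pt y) P ↔ ∃ w ∈ Z.A, Orb V.π (w ∘ p.iJ) y) ∧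
    ∀ f, (∃ w ∈ Z.A, f ∈ a.M.O (a.pt (w ∘ p.iJ))) → Rstr p z a f (res f)

/-- **CTR**: classes of type `(n, k + 1)` vanish on contracted divisors -/
def CTR : Prop := ∀ (n : ℕ) (Y X : Var (n + 1)) (K : Type) [Field K] [Algebra ℂ K] (b : Vm Y K)
  (a : Vm X K) (p : Ext Y X) (P : Place K) (Z : Var n) (r : Ext Z Y), Over p b a → ¬ a.M.Pr P →
  (∀ w ∈ Z.A, b.M.On (b.pt (w ∘ r.iJ)) P) → ∀ k, ∀ x ∈ X.Hg n (k + 1), (r.comp p).pb x = 0

/-- The class map. -/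
structure Cls {V : Var n} (a : Vm V K) (cl : P277Z.Div K → P291Z.H V.X) : Prop where
  add : ∀ D D', cl (D + D') = cl D + cl D'
  smul : ∀ (c : ℝ) D, cl (c • D) = (c : ℂ) • cl D
  tr : ∀ D, cl (a.M.tr D) = cl D
  int : ∀ D, IsInt D → cl D ∈ Zc.Lk V.X 2
  hg : ∀ D, cl D ∈ V.Hg 1 1
  div : ∀ f, f ≠ 0 → cl (a.M.div f) = 0
  lc : ∀ d F D, Sec V d F → a.IsDiv F D → cl D = V.lc d
  num : ∀ D z, (∀ i, a.M.Dv (D i) ∧ IsInt (D i)) → F5.IsI a.M D z →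
    V.int (List.ofFn fun i => cl (D i)).prod = z

/-- **CLS**: classes of divisors -/
def CLS : Prop := ∃ cl : ∀ (n : ℕ) (V : Var n) (K : Type) [Field K] [Algebra ℂ K],
    Vm V K → P277Z.Div K → P291Z.H V.X,
  (ForV fun n V K _ _ a => Cls a (cl n V K a)) ∧
  ForV fun n X K _ _ a => ∀ (Y : Var n) (p : Ext Y X) (b : Vm Y K), Over p b a →
    ∀ D, cl n Y K b (a.M.pull b.M D) = p.pb (cl n X K a D)

/-- A Fano model of Picard number one and index `i`. -/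
structure One (M : Mdl n 0 K) (H : P277Z.Div K) (i : ℕ) : Prop where
  pol : F5.Pol M H
  can : FI.IsCan M (-(i : ℝ) • H)
  pic : ∀ D, M.Dv D → IsInt D → ∃ (c : ℤ) (f : K), f ≠ 0 ∧ D = (c : ℝ) • H + M.div f

/-- **ONE**: projective space and the cubic -/
structure ONE : Prop where
  p4 : ∀ (h : PV (Cub.π₀ (Fin 5)) {0}ᶜ 4) (c : IsConnected _) (K : Type) [Field K] [Algebra ℂ K]
    (a : Vm (Top.one h c) K), Chr a ∧ ∃ H, One a.M H 5 ∧ F5.IsI a.M (fun _ => H) 1 ∧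
      ∃ i, a.IsDiv (fun y => y i) H
  cub : ∀ F : MvPolynomial (Fin 6) ℂ, F.IsHomogeneous 3 → Pub.IsSmoothForm F →
    ∀ (h : PV (Cub.π₀ (Fin 6)) (Pub.cone F) 4) (c : IsConnected _) (K : Type) [Field K]
      [Algebra ℂ K] (a : Vm (Top.one h c) K), Chr a ∧ ∃ H, One a.M H 3 ∧
        F5.IsI a.M (fun _ => H) 3 ∧ ∃ i, a.IsDiv (fun y => y i) H

end Vale.Agent.P287D.Br
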