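import Vale.Agent.P287D.Br.Ov
import Vale.Agent.P287D.Cl.Main
import Vale.Agent.P287D.Ba.Sec
import Vale.Agent.P287D.Pb.Abh

/-!
# P287D, block BR: the pull back of divisors and of their classes along a dominant map
-/

open Set Filter Topology
open Vale.Agent.P287Q Vale.Agent.P277Z Vale.Agent.P277Z.FI Vale.Agent.P297Z Vale.Agent.P291Z
open Vale.Agent.P287D.Ba Vale.Agent.P287D.Cl

noncomputable section

namespace Vale.Agent.P287D.Br

variable {n m : ℕ} {K L : Type} [Field K] [Algebra ℂ K] [Field L] [Algebra ℂ L] {φ : K →ₐ[ℂ] L}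

section mdl

variable {M : Mdl n 0 K} {M' : Mdl m 0 L} (μ : Bm.Hom M' M φ) (hM : M.Proj) (hM' : M'.Proj)
  {D : P277Z.Div K} {E : P277Z.Div L}

include hM in
theorem bar_le {x : M.F} {t : K} (a : Le M D x t) {Q : Pl K} (hQ : M.Ct x Q.toPlace) :
    bar M D Q = Q.ord t :=
  (bar_loc hM hQ fun R hR => (a.2 R hR).trans (div_apply (hloc hM) t ⟨_, hR⟩).symm).trans
    (congrFun (bar_div hM t) Q)

include hM hM' in
theorem pb_le {y : M'.F} {t : K} (a : Le M D (μ.pt y) t) {P : Pl L} (hP : M'.Ct y P.toPlace) :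
    pb (φ : K →+* L) (bar M D) P = P.ord (φ t) := by
  obtain h | ⟨Q, h⟩ := (Bm.ff hM').ok φ P
  · rw [h.pb]
    exact_mod_cast (h.ord t).symm
  · rw [h.pb, bar_le hM a fun f hf => (h f).2 (hP _ (μ.le y _ rfl f hf))]
    exact_mod_cast (h.ord t).symm

include hM hM' in
theorem le_pb (e : Trc M' (pb (φ : K →+* L) (bar M D)) E) {y : M'.F} {t : K}
    (a : Le M D (μ.pt y) t) : Le M' E y (φ t) :=
  ⟨(_root_.map_ne_zero φ).2 a.1, fun Q hQ => by
    obtain ⟨P, rfl⟩ := Bm.pl_of_pr hM' ⟨_, hQ⟩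
    exact (e.2 P ⟨_, hQ⟩).symm.trans (pb_le μ hM hM' a (hQ.elim fun _ k => k.le))⟩

/-- the continuous map -/
def cm : C(M'.F, M.F) :=
  ⟨μ.pt, Continuous.subtype_mk (continuous_iff_continuousAt.2 fun y : M'.F =>
    (μ.cont hM y.2).comp continuousAt_subtype_val) _⟩

include hM' in
theorem pb_int (hD : IsInt D) : ∃ E, IsInt E ∧ bar M' E = pb (φ : K →+* L) (bar M D) ∧
    cl M' E = H.map (cm μ hM) (cl M D) := by
  obtain ⟨E, e⟩ := trc_car hM' (((Bm.ff hM').ok φ).car (bar_car hM D))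
  choose t ht using exists_le (hloc hM) hD
  have k := fun y => le_pb μ hM hM' e (ht (μ.pt y))
  have k1 : bar M' E = pb (φ : K →+* L) (bar M D) := funext fun P =>
    let ⟨y, hy⟩ := Ba.ct hM' P
    (bar_le hM' (k y) hy).trans (pb_le μ hM hM' (ht _) hy).symm
  have k2 : IsInt E := e.int hM' fun P =>
    let ⟨_, hy⟩ := Ba.ct hM' P
    ⟨_, pb_le μ hM hM' (ht _) hy⟩
  have := niceF M'
  refine ⟨E, k2, k1, map_cl (hloc hM) hD ht (cm μ hM) (isC1_cl (hloc hM') k2 k)
    (s := fun _ => 1) (fun _ => one_ne_zero) (w := fun _ _ => 1) (fun _ => continuousAt_const)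
    fun x => ?_⟩
  filter_upwards [fr_near (hloc hM') k x,
    (cm μ hM).continuous.continuousAt.eventually ((ht _).near (hloc hM))] with y a b
  refine congrArg _ (a.2.trans ?_).symm
  rw [← map_div₀]
  exact μ.val_pt y ((ht _).unit (hloc hM) b).1

include hM' in
theorem pb_real (D : P277Z.Div K) : ∃ E, bar M' E = pb (φ : K →+* L) (bar M D) ∧
    cl M' E = H.map (cm μ hM) (cl M D) := by
  induction D using Finsupp.induction_linear with
  | zero => exact ⟨0, by rw [map_zero, map_zero, pb_zero], by rw [map_zero, map_zero, map_zero]⟩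
  | add D D' h h' =>
    obtain ⟨E, a, b⟩ := h
    obtain ⟨E', a', b'⟩ := h'
    exact ⟨E + E', by rw [map_add, map_add, pb_add, a, a'], by
      rw [map_add, map_add, map_add, b, b']⟩
  | single P c =>
    obtain ⟨E, -, a, b⟩ := pb_int μ hM hM' (IsInt.single P)
    rw [← Finsupp.smul_single_one]
    exact ⟨c • E, by rw [map_smul, map_smul, pb_smul, a], by
      rw [map_smul, map_smul, b]
      exact (((H.mapA (cm μ hM)).toLinearMap.restrictScalars ℝ).map_smul c _).symm⟩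

include hM in
theorem cl_bar {D' : P277Z.Div K} (e : bar M D = bar M D') : cl M D = cl M D' := by
  rw [← cl_tr (hloc hM) D, ← cl_tr (hloc hM) D',
    bar_inj hM (F5.dv_tr D) (F5.dv_tr D') (by rw [bar_tr hM, bar_tr hM, e])]

include hM' in
theorem cl_pb (e : bar M' E = pb (φ : K →+* L) (bar M D)) :
    cl M' E = H.map (cm μ hM) (cl M D) :=
  let ⟨_, a, b⟩ := pb_real μ hM hM' D
  (cl_bar hM' (e.trans a.symm)).trans b

include μ hM hM' in
/-- The pull back of a divisor descends to the model. -/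
theorem ds_pb (D : P277Z.Div K) : ∃ E, M'.Dv E ∧ bar M' E = pb (φ : K →+* L) (bar M D) ∧
    (IsInt D → IsInt E) := by
  obtain ⟨E, a, -⟩ := pb_real μ hM hM' D
  refine ⟨_, F5.dv_tr E, (bar_tr hM' E).trans a, fun h => int_of_bar hM' (F5.dv_tr E) fun P => ?_⟩
  obtain ⟨E', b, c, -⟩ := pb_int μ hM hM' h
  rw [bar_tr hM', a, ← c]
  exact bar_int hM' b P

end mdl

variable {X : Var n} {Y : Var m} {p : P287Q.Ext Y X} {a : Vm X K} {b : Vm Y L}

theorem vcl_bar {D D' : P277Z.Div K} (e : bar a.M D = bar a.M D') : vcl a D = vcl a D' := by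
  rw [vcl_eq, vcl_eq, cl_bar a.proj e]

/-- **CLP** -/
theorem vcl_pb (r : ∀ f, Rstr p b a f (φ f)) {D : P277Z.Div K} {E : P277Z.Div L}
    (e : bar b.M E = pb (φ : K →+* L) (bar a.M D)) : vcl b E = p.pb (vcl a D) := by
  obtain ⟨μ, o⟩ := exists_bhom r
  rw [vcl_eq, cl_pb μ a.proj b.proj e, H.map_map]
  refine (congrArg (H.map · _) (ContinuousMap.ext (P269.Tq.mk_surj.forall.2 fun y => ?_))).trans
    (H.map_map _ _ _).symm
  exact (congrArg (cm μ a.proj) (hm_pt b y)).trans ((Subtype.ext (o y y.2)).trans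
    (hm_pt a ⟨_, p.map _ y.2⟩).symm)

theorem exists_pb (r : ∀ f, Rstr p b a f (φ f)) (D : P277Z.Div K) : ∃ E, b.M.Dv E ∧
    bar b.M E = pb (φ : K →+* L) (bar a.M D) ∧ (IsInt D → IsInt E) ∧ vcl b E = p.pb (vcl a D) :=
  let ⟨μ, _⟩ := exists_bhom r
  let ⟨E, h1, h2, h3⟩ := ds_pb μ a.proj b.proj D
  ⟨E, h1, h2, h3, vcl_pb r h2⟩

end Vale.Agent.P287D.Br
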