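import Vale.Agent.P287D.Br.Alg
import Vale.Agent.P287D.Br.Rat

/-!
# P287D, block BR: the generic point of a model
-/

open Set Filter Topology MvPolynomial
open Vale.Agent.P287Q Vale.Agent.P277Z Vale.Agent.P277Z.Lo Vale.Agent.P277Z.FI Vale.Agent.P297Z
open Vale.Agent.P287D.Nc Vale.Agent.P270L Vale.Agent.P285N
open Vale.Agent.P297 (Place)
open Vale.Agent.P269.Holo (HolOn)
open Vale.Agent.P272.K (Cm)

noncomputable section

namespace Vale.Agent.P287D.Br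

variable {n : ℕ} {K K' : Type} [Field K] [Algebra ℂ K] [Field K'] [Algebra ℂ K'] {V : Var n}
  {s : Sel V.π} {y : V.J → ℂ} {ξ ξ' : V.J → K} {δ : V.R → ℤ} {P Q : MvPolynomial V.J ℂ}

/-- One chosen field is replaced by `j`. -/
def upd (s : Sel V.π) (j : V.J) : Sel V.π := ⟨Function.update s.1 (V.π j) j, fun r => by
  by_cases k : r = V.π j
  · subst k; simp
  · simp [k, s.2]⟩

theorem prod_upd {L : Type} [Field L] {z : V.J → L} (h : ∀ r, z (s.1 r) ≠ 0) (j : V.J) :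
    (∏ r, z ((upd s j).1 r)) / ∏ r, z (s.1 r) = z j / z (s.1 (V.π j)) := by
  rw [← Finset.prod_div_distrib, Finset.prod_eq_single (V.π j)
    (fun r _ k => by simp [upd, k, h]) (by simp)]
  simp [upd]

theorem sec_sel (γ : Sel V.π) : Sec V 1 fun z => ∏ r, z (γ.1 r) := by
  simpa [Pi.one_def] using Sec.sel γ 1

namespace Vm

variable {a : Vm V K}

variable (a) in
/-- `ξ` is the generic point of the model. -/
structure At (ξ : V.J → K) : Prop where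
  ne : ∀ j, ξ j ≠ 0 ↔ ∃ y ∈ V.A, y j ≠ 0
  is : ∀ j j', V.π j = V.π j' → a.Is (ξ j / ξ j') (fun y => y j) fun y => y j'

variable (a) in
theorem exists_at : ∃ ξ, a.At ξ := by
  obtain ⟨y, hy⟩ := V.conn.nonempty
  obtain ⟨s, hs⟩ := exists_in hy
  choose ξ h using fun j => a.exists_fr s (Sec.crd j)
  refine ⟨ξ, fun j => ⟨fun k => by_contra fun e => k (eq_of_in (a := a) ⟨y, hy, hs⟩ fun z hz u => ?_),
    (h j).ne (Sec.crd j) ⟨y, hy, hs⟩⟩,
    fun j j' e => (h j).is (h j') (Sec.crd j) (e ▸ Sec.crd j') ⟨y, hy, hs⟩⟩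
  rw [(h j z hz u).2, a.M.val_zero]
  exact by_contra fun v => e ⟨_, u.mem hz, v⟩

theorem Fr.aeval {σ : Type} {w : σ → K} {j : σ → V.J} (h : ∀ i, a.Fr s (fun y => y (j i)) (w i))
    (p : MvPolynomial σ ℂ) : a.Fr s (fun y => eval (y ∘ j) p) (aeval w p) := fun y hy hs =>
  let k := Md.val_aeval a.M (x := a.pt y) (fun i => (h i y hy hs).1) p
  ⟨k.1, k.2.trans (congrArg (eval · p) (funext fun i => (h i y hy hs).2))⟩

theorem Fr.coord {w : V.J → K} (h : ∀ j, a.Fr s (fun y => y j) (w j)) (hy : y ∈ V.A)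
    (hs : In s y) : ∃ p : Fin n → MvPolynomial V.J ℂ,
      a.M.Coord (a.pt y) fun k => MvPolynomial.aeval w (p k) := by
  have hc := Lo.at_chartAt (n := n) (a.q y)
  generalize chartAt (Cm n) (a.q y) = c at hc
  have h1 : ∀ j, AnalyticAt ℂ (fun z => a.lf s (c.symm z) j) (c (a.q y)) := fun j =>
    a.hol_lf (F := fun z => z j) hs hy (.of_an (an_crd j _)) c hc
  have h2 := (analyticAt_pi_iff.2 h1).differentiableAt
  obtain ⟨B, hB⟩ := LinearMap.exists_leftInverse_of_injective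
    (fderiv ℂ (fun z j => a.lf s (c.symm z) j) (c (a.q y)) : Cm n →ₗ[ℂ] V.J → ℂ)
    (LinearMap.ker_eq_bot'.2 fun v hv => a.imm hs hy hc fun j => by
      rw [fderiv_pi fun j => (h1 j).differentiableAt] at hv
      exact congrFun hv j)
  let p : Fin n → MvPolynomial V.J ℂ := fun k =>
    ∑ j, C (B (Pi.single j 1) k) * X j - C (B (nm s y) k)
  have h3 : ∀ z k, eval (z ∘ id) (p k) = B z k - B (nm s y) k := fun z k => by
    conv_rhs => rw [pi_eq_sum_univ' z]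
    simp [p, mul_comm]
  have h4 := fun k => Fr.aeval (j := id) h (p k)
  refine ⟨p, fun k => ⟨(h4 k y hy hs).1, (h4 k y hy hs).2.trans ((h3 _ k).trans (sub_self _))⟩,
    fun e he => (Jc.jd_ne_iff he hc fun k => (h4 k y hy hs).1).2 ?_⟩
  change jd _ c (a.q y) ≠ 0
  rw [Jc.jd_congr (g' := fun k x => B (a.lf s x) k - B (nm s y) k) hc
    fun k => ((h4 k).ev hy hs).mono fun x e => e.trans (h3 _ k), Jc.jd_sub_const, jd]
  have h5 := (HasFDerivAt.comp (f := fun z j => a.lf s (c.symm z) j) (c (a.q y))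
    (LinearMap.toContinuousLinearMap B).hasFDerivAt h2.hasFDerivAt).fderiv
  erw [h5]
  exact ((congrArg LinearMap.det hB).trans LinearMap.det_id).trans_ne one_ne_zero

namespace At

theorem nz (h : a.At ξ) : Nc.Nz V.π ξ := fun r =>
  let ⟨y, hy⟩ := V.conn.nonempty
  let ⟨j, u, v⟩ := V.pv.sub hy r
  ⟨j, u, (h.ne j).2 ⟨y, hy, v⟩⟩

theorem sel (h : a.At ξ) (h0 : ∃ y ∈ V.A, In s y) (r : V.R) : ξ (s.1 r) ≠ 0 :=
  (h.ne _).2 (h0.imp fun _ k => ⟨k.1, k.2 r⟩)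

theorem fr (h : a.At ξ) (s : Sel V.π) (j : V.J) : a.Fr s (fun y => y j) (nk s ξ j) :=
  fun y hy hs => h.is j _ (s.2 _).symm y hy (hs _)

theorem fr_eval (h : a.At ξ) (s : Sel V.π) (p : MvPolynomial V.J ℂ) :
    a.Fr s (fun y => eval y p) (aeval (nk s ξ) p) := Fr.aeval (j := id) (h.fr s) p

theorem sim (h : a.At ξ) (e : Sim V.π ξ ξ') : a.At ξ' :=
  let ⟨_, u, v⟩ := e
  ⟨fun j => by rw [v, mul_ne_zero_iff, and_iff_right (u _), h.ne], fun j j' k => by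
    rw [v, v, k, mul_div_mul_left _ _ (u _)]
    exact h.is j j' k⟩

theorem is_eval (h : a.At ξ) (hP : WHom (bw V.π) δ P) (hQ : WHom (bw V.π) δ Q) :
    a.Is (aeval ξ P / aeval ξ Q) (fun y => eval y P) fun y => eval y Q := by
  obtain ⟨y, hy⟩ := V.conn.nonempty
  obtain ⟨s, hs⟩ := exists_in hy
  have k := h.sel ⟨y, hy, hs⟩
  have := (h.fr_eval s P).is (h.fr_eval s Q) (Sec.eval hP) (Sec.eval hQ) ⟨y, hy, hs⟩
  rwa [aeval_nk k hP, aeval_nk k hQ, mul_div_mul_left _ _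
    (Finset.prod_ne_zero_iff.2 fun r _ => zpow_ne_zero _ (inv_ne_zero (k r)))] at this

theorem gq (h : a.At ξ) : Gq V ξ := by
  obtain ⟨y, hy⟩ := V.conn.nonempty
  obtain ⟨s, hs⟩ := exists_in hy
  have k := h.sel ⟨y, hy, hs⟩
  refine ⟨⟨h.nz, fun δ g u v => ?_⟩, fun δ g u v z hz => by_contra fun w =>
    (h.fr_eval s g).ne (Sec.eval u) ⟨y, hy, hs⟩ ⟨z, hz, w⟩ (by rw [aeval_nk k u, v, mul_zero])⟩
  have e : aeval (nk s ξ) g = 0 := eq_of_in (a := a) ⟨y, hy, hs⟩ fun z hz w => by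
    rw [(h.fr_eval s g z hz w).2, a.M.val_zero]
    exact v _ (w.mem hz)
  rw [aeval_nk k u] at e
  exact (mul_eq_zero.1 e).resolve_left
    (Finset.prod_ne_zero_iff.2 fun r _ => zpow_ne_zero _ (inv_ne_zero (k r)))

theorem fr_sel (h : a.At ξ) (s γ : Sel V.π) :
    a.Fr s (fun z => ∏ r, z (γ.1 r)) (∏ r, nk s ξ (γ.1 r)) := by
  simpa using h.fr_eval s (∏ r, X (γ.1 r))

theorem top (h : a.At ξ) : fl V.π ξ = ⊤ := by
  obtain ⟨y₀, h₀⟩ := V.conn.nonempty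
  obtain ⟨s, hs⟩ := exists_in h₀
  have k := h.sel ⟨y₀, h₀, hs⟩
  have k1 : ∀ r, nk s ξ (s.1 r) = 1 := fun r => by rw [nk, s.2, div_self (k r)]
  let u : Sel V.π → K := fun γ => ∏ r, nk s ξ (γ.1 r)
  have h1 : IntermediateField.adjoin ℂ (range u) = fl V.π ξ := by
    rw [fl_eq k]
    refine le_antisymm (IntermediateField.adjoin_le_iff.2 (range_subset_iff.2 fun γ =>
      prod_mem fun r _ => IntermediateField.subset_adjoin _ _ ⟨_, rfl⟩))
      (IntermediateField.adjoin.mono _ _ _ (range_subset_iff.2 fun j => ⟨upd s j, ?_⟩))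
    simpa [k1] using prod_upd (z := nk s ξ) (fun r => (k1 r).trans_ne one_ne_zero) j
  obtain ⟨p, hp⟩ := Fr.coord (h.fr s) h₀ hs
  obtain ⟨D, hD, -⟩ := Ct.der hp
  have h2 := Ct.finite Ct.tools a.proj (Ct.ai_of_dual hD)
  have : Algebra.IsAlgebraic (IntermediateField.adjoin ℂ (range u)) K := by
    rw [h1, fl_eq k]
    exact Nc.alg_mono (IntermediateField.adjoin_le_iff.2 (range_subset_iff.2 fun i =>
      IntermediateField.algebra_adjoin_le_adjoin ℂ _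
        ((Algebra.adjoin_range_eq_range_aeval ℂ _).ge ⟨p i, rfl⟩))) inferInstance
  choose y hy e using a.exists_pt
  choose J hJ using fun x => exists_in (hy x)
  have h3 := fun γ x => (h.fr_sel s γ).is (h.fr_sel s (J x)) (sec_sel γ) (sec_sel _) ⟨y₀, h₀, hs⟩
    (y x) (hy x) (Finset.prod_ne_zero_iff.2 fun r _ => hJ x r)
  have e' : ∀ x, a.q (y x) = x := fun x => congrArg Subtype.val (e x)
  simp only [e, e'] at h3
  refine h1 ▸ Md.sep a.proj u J (fun x => ⟨Finset.prod_ne_zero_iff.2 fun r _ =>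
    div_ne_zero (h.sel ⟨_, hy x, hJ x⟩ r) (k _), fun γ => (h3 γ x).1⟩)
    (a.gen_of (Sec.sel s 1) ⟨y₀, h₀, sel_ne hs _⟩ fun z hz v x w => ?_)
  have v' := in_of v
  have w' : ∀ γ : Sel V.π, (∏ r, y x (γ.1 r)) / (∏ r, y x ((J x).1 r)) *
      ∏ r, nm s z ((J x).1 r) = ∏ r, nm s z (γ.1 r) := fun γ => by
    have := w γ
    rwa [(h3 γ x).2, (h.fr_sel s γ z hz v').2, (h.fr_sel s _ z hz v').2] at this
  have w1 : ∏ r, nm s z ((J x).1 r) ≠ 0 := right_ne_zero_of_mul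
    ((w' s).trans_ne (by simp [v'.nm_sel]))
  have w2 : In (J x) (nm s z) := fun r => Finset.prod_ne_zero_iff.1 w1 r (Finset.mem_univ r)
  rw [← e' x, ← a.q_nm v' hz, ← a.q_nm w2 (v'.mem hz)]
  refine (a.q_nm (hJ x) (hy x)).symm.trans (congrArg _ (funext fun j => ?_))
  exact (prod_upd (hJ x) j).symm.trans ((eq_div_of_mul_eq w1 (w' _)).trans (prod_upd w2 j))

theorem gp (h : a.At ξ) : Gp V ξ := ⟨h.gq, h.top⟩

/-- Rational functions are quotients of forms. -/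
theorem gen (h : a.At ξ) (f : K) : ∃ δ P Q, WHom (bw V.π) δ P ∧ WHom (bw V.π) δ Q ∧
    aeval ξ Q ≠ 0 ∧ f = aeval ξ P / aeval ξ Q := by
  obtain ⟨s, k⟩ := exists_sel h.nz
  have k0 := Finset.prod_ne_zero_iff.2 fun j (_ : j ∈ Finset.univ) => k (V.π j)
  obtain ⟨p, q, e⟩ := (IntermediateField.mem_adjoin_range_iff ℂ _ f).1
    (((fl_eq k).symm.trans h.top).ge trivial)
  by_cases q0 : aeval (nk s ξ) q = 0
  · exact ⟨0, 0, 1, fun _ u => by simp at u, whom_iff.2 (isWeightedHomogeneous_one _ _), by simp,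
      by simp [e, q0]⟩
  obtain ⟨N, P, a1, a2⟩ := exists_frm s p
  obtain ⟨M, Q, b1, b2⟩ := exists_frm s q
  have hD := IsWeightedHomogeneous.prod Finset.univ
    (fun j => (X (s.1 (V.π j)) : MvPolynomial V.J ℂ)) _
    fun j _ => isWeightedHomogeneous_X ℂ (bw V.π) (s.1 (V.π j))
  refine ⟨_, P * (∏ j, X (s.1 (V.π j))) ^ M, (∏ j, X (s.1 (V.π j))) ^ N * Q,
    whom_iff.2 ((whom_iff.1 a1).mul (hD.pow M)), whom_iff.2 ((hD.pow N).mul (whom_iff.1 b1)),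
    ?_, ?_⟩ <;> simp only [map_mul, map_pow, map_prod, aeval_X, a2 K ξ k, b2 K ξ k]
  · exact mul_ne_zero (pow_ne_zero _ k0) (mul_ne_zero (pow_ne_zero _ k0) q0)
  · rw [e]
    field_simp

theorem exists_ne (h : a.At ξ) (hQ : WHom (bw V.π) δ Q) (h0 : aeval ξ Q ≠ 0) :
    ∃ y ∈ V.A, eval y Q ≠ 0 := by
  by_contra! k
  exact h0 (h.gq.van δ Q hQ k)

end At

/-- Transport along an isomorphism of fields. -/
def tr (a : Vm V K') (e : K ≃ₐ[ℂ] K') : Vm V K := ⟨Md.tr a.M e, a.q, a.qm, a.all, a.hol⟩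

end Vm

theorem gen' : GEN := fun _ _ _ _ _ a f =>
  let ⟨_, h⟩ := a.exists_at
  let ⟨δ, P, Q, h1, h2, h3, e⟩ := h.gen f
  ⟨δ, P, Q, h1, h2, h.exists_ne h2 h3, e ▸ h.is_eval h1 h2⟩

theorem gp0 : GP0 := fun n V =>
  let ⟨K, _, _, ⟨a⟩⟩ := ex n V
  let ⟨ξ, h⟩ := a.exists_at
  ⟨K, _, _, ξ, h.gp⟩

/-- A generic point gives a model. -/
theorem vm (h : Gp V ξ) : ∃ a : Vm V K, a.At ξ := by
  obtain ⟨K', _, _, ⟨a⟩⟩ := ex n V
  obtain ⟨ζ, k⟩ := a.exists_at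
  obtain ⟨e, he⟩ := exists_gp_iso h k.gp
  refine ⟨a.tr e, fun j => ⟨fun u => by_contra fun v => u ?_, fun ⟨_, u, v⟩ => h.ne u v⟩,
    fun j j' u => ?_⟩
  · simpa using h.van _ _ (whom_X V.π j) fun y hy => by
      simpa using by_contra fun w => v ⟨y, hy, w⟩
  · have := k.is j j' u
    rwa [← he j j' u] at this

theorem ff_of_gp (h : Gp V ξ) : FF K n :=
  let ⟨a, _⟩ := vm h
  Bm.ff a.proj

theorem dim : DIM := fun n V _ _ _ _ =>
  ⟨ff_of_gp, fun k =>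
    let ⟨_, _, _, _, h⟩ := gp0 n V
    dim_of h (ff_of_gp h) k⟩

end Vale.Agent.P287D.Br
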