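import Vale.Agent.P287D.Br.Gp
import Vale.Agent.P287D.Nc.Pa0
import Vale.Agent.P287D.Ba.Bar
import Vale.Agent.P287T.Kx.L0

/-!
# P287D, block BR: the local rings are localisations; prime divisors
-/

open Set Filter Topology MvPolynomial
open Vale.Agent.P287Q Vale.Agent.P277Z Vale.Agent.P277Z.FI Vale.Agent.P297Z
open Vale.Agent.P287D.Nc Vale.Agent.P287T

noncomputable section

namespace Vale.Agent.P287D.Br

variable {n : ℕ} {K : Type} [Field K] [Algebra ℂ K] {V : Var n} {s : Sel V.π} {y : V.J → ℂ}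
  {ξ : V.J → K} {d : V.R → ℤ} {f : K} {G G' : (V.J → ℂ) → ℂ}

theorem exists_forms {J R : Type} [Fintype J] [Fintype R] [DecidableEq R] {π : J → R} (s : Sel π)
    (p q : MvPolynomial J ℂ) : ∃ δ P Q, WHom (bw π) δ P ∧ WHom (bw π) δ Q ∧
      ∀ (L : Type) [Field L] [Algebra ℂ L] (z : J → L), (∀ r, z (s.1 r) ≠ 0) → ∃ c, c ≠ 0 ∧
        aeval z P = c * aeval (nk s z) p ∧ aeval z Q = c * aeval (nk s z) q := by
  obtain ⟨N, P, a1, a2⟩ := exists_frm s p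
  obtain ⟨M, Q, b1, b2⟩ := exists_frm s q
  have hD := IsWeightedHomogeneous.prod Finset.univ (fun j => (X (s.1 (π j)) : MvPolynomial J ℂ)) _
    fun j _ => isWeightedHomogeneous_X ℂ (bw π) (s.1 (π j))
  refine ⟨_, P * (∏ j, X (s.1 (π j))) ^ M, (∏ j, X (s.1 (π j))) ^ N * Q,
    whom_iff.2 ((whom_iff.1 a1).mul (hD.pow M)), whom_iff.2 ((hD.pow N).mul (whom_iff.1 b1)),
    fun L _ _ z k => ⟨(∏ j, z (s.1 (π j))) ^ (N + M), pow_ne_zero _
      (Finset.prod_ne_zero_iff.2 fun j _ => k _), ?_, ?_⟩⟩ <;>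
    simp only [map_mul, map_pow, map_prod, aeval_X, a2 L z k, b2 L z k] <;> ring

namespace Vm

variable {a : Vm V K}

theorem Is.cross (h : a.Is f G G') (hG : Sec V d G) (hG' : Sec V d G') (h0 : ∃ y ∈ V.A, G' y ≠ 0)
    (hy : y ∈ V.A) (hf : f ∈ a.M.O (a.pt y)) : G y = a.M.val f (a.q y) * G' y :=
  tendsto_nhds_unique_of_frequently_eq ((hG.hol y hy).tendsto hy)
    ((holOn_mul (a.holOn hy hf) (hG'.hol y hy)).tendsto hy)
    (((freq_ne V.conn.isPreconnected V.mfd hG'.hol h0 hy).and_eventually self_mem_nhdsWithin).mono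
      fun z k => by rw [(h z k.2 k.1).2, div_mul_cancel₀ _ k.1])

namespace At

theorem loc0 (h : a.At ξ) (hy : y ∈ V.A) (hs : In s y) (hf : f ∈ a.M.O (a.pt y)) :
    ∃ S B : MvPolynomial V.J ℂ, eval (nm s y) S ≠ 0 ∧
      f * aeval (nk s ξ) S = aeval (nk s ξ) B := by
  obtain ⟨δ, P, Q, h1, h2, h3, e⟩ := h.gen f
  obtain ⟨_, _, G, c⟩ := Pa.eqs V
  have k := h.sel ⟨y, hy, hs⟩
  have hy' := hs.mem hy
  rw [show a.pt y = a.pt (nm s y) from Subtype.ext (a.q_nm hs hy).symm] at hf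
  generalize nm s y = y at hy' hf
  obtain ⟨ψ, p, rfl⟩ := (V.pv.mfd y hy').prm
  obtain ⟨S, s1, s2⟩ := Kx.krp G p.an p.imm (fun v hv => p.mem_tn.1 (c.jac _ hy' v
      (tn_of_nhds (isOpen_Ust.mem_nhds (c.sub hy')) ▸ trivial) (by
        rw [show fderiv ℂ (gv G) (ψ 0) = _ from
          (hasFDerivAt_pi.2 fun i => Kx.hasFDerivAt_eval (G i) (ψ 0)).fderiv]
        exact funext hv)))
    (p.mem.mono fun x hx i => congrFun ((c.zero _ (c.sub hx)).1 hx) i) (g := P)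
    (b := fun _ : Unit => Q) (h := fun _ x => a.M.val f (a.q (ψ x)))
    (fun _ => p.holOn_iff.1 (a.holOn hy' hf)) (by
      filter_upwards [p.mem, p.ev.2 (a.ev_O hy' hf)] with x u v
      simpa using (e ▸ h.is_eval h1 h2).cross (Sec.eval h1) (Sec.eval h2) (h.exists_ne h2 h3) u v)
  obtain ⟨u, u1, v, v1, w⟩ := Submodule.mem_sup.1 s2
  rw [range_const, Ideal.mem_span_singleton'] at v1
  obtain ⟨B, rfl⟩ := v1
  have u0 : aeval (nk s ξ) u = 0 := (Ideal.span_le (I := RingHom.ker (aeval (nk s ξ) :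
      MvPolynomial V.J ℂ →ₐ[ℂ] K))).2 (range_subset_iff.2 fun i => ((sim_nk k).pt h.gq.toPt).van _ _
        (c.hom i) fun z hz => congrFun ((c.zero z (c.sub hz)).1 hz) i) u1
  have w' := congrArg (aeval (nk s ξ)) w
  rw [map_add, map_mul, map_mul, u0, zero_add, aeval_nk k h1, aeval_nk k h2, mul_left_comm,
    mul_left_comm (aeval _ S)] at w'
  refine ⟨S, B, s1, ?_⟩
  rw [e, div_mul_eq_mul_div, div_eq_iff h3, mul_comm]
  exact (mul_left_cancel₀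
    (Finset.prod_ne_zero_iff.2 fun r _ => zpow_ne_zero _ (inv_ne_zero (k r))) w').symm

/-- **The local ring is the localisation.** -/
theorem loc (h : a.At ξ) (hy : y ∈ V.A) (hf : f ∈ a.M.O (a.pt y)) :
    ∃ δ A B, WHom (bw V.π) δ A ∧ WHom (bw V.π) δ B ∧ eval y B ≠ 0 ∧
      f = aeval ξ A / aeval ξ B := by
  obtain ⟨s, hs⟩ := exists_in hy
  obtain ⟨S, B, h1, h2⟩ := h.loc0 hy hs hf
  obtain ⟨δ, P, Q, a1, a2, a3⟩ := exists_forms s B S
  obtain ⟨c, c0, -, c2⟩ := a3 ℂ y hs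
  obtain ⟨e, e0, e1, e2⟩ := a3 K ξ (h.sel ⟨y, hy, hs⟩)
  have h3 : eval y Q ≠ 0 := by
    simp only [aeval_eq_eval] at c2
    exact c2 ▸ mul_ne_zero c0 h1
  have h4 : aeval ξ Q ≠ 0 := fun k => h3 (h.gq.gen δ Q a2 k y hy)
  exact ⟨δ, P, Q, a1, a2, h3, by rw [eq_div_iff h4, e1, e2, ← h2, mul_left_comm]⟩

theorem mem_iff (h : a.At ξ) (hy : y ∈ V.A) : f ∈ a.M.O (a.pt y) ↔
    ∃ δ A B, WHom (bw V.π) δ A ∧ WHom (bw V.π) δ B ∧ eval y B ≠ 0 ∧ f = aeval ξ A / aeval ξ B :=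
  ⟨h.loc hy, fun ⟨_, _, _, a1, a2, a3, e⟩ => e ▸ (h.is_eval a1 a2 y hy a3).1⟩

theorem rd (h : a.At ξ) (hy : y ∈ V.A) (hs : In s y) {P : Pl K} (hP : a.M.Ct (a.pt y) P.toPlace) :
    Rd V.π P ξ (fun j => P.rd (nk s ξ j)) ∧
      fl V.π (fun j => P.rd (nk s ξ j)) = .adjoin ℂ (range fun j => P.rd (nk s ξ j)) := by
  have k := h.sel ⟨y, hy, hs⟩
  have k1 : ∀ r, P.rd (nk s ξ (s.1 r)) = 1 := fun r => by rw [nk, s.2, div_self (k r), Bm.rd_one]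
  refine ⟨⟨fun r => ⟨_, s.2 r, (k1 r).trans_ne one_ne_zero⟩, _, sim_nk k,
    fun j => ⟨hP _ (h.fr s j y hy hs).1, rfl⟩⟩, ?_⟩
  rw [fl_eq (s := s) fun r => (k1 r).trans_ne one_ne_zero]
  exact congrArg (fun f => IntermediateField.adjoin ℂ (range f)) (funext fun j => by
    rw [nk, k1, _root_.div_one])

theorem rd_mem (h : a.At ξ) (hy : y ∈ V.A) (hs : In s y) {P : Pl K}
    (hP : a.M.Ct (a.pt y) P.toPlace) (hf : f ∈ a.M.O (a.pt y)) :
    P.rd f ∈ fl V.π fun j => P.rd (nk s ξ j) := by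
  obtain ⟨S, B, h1, h2⟩ := h.loc0 hy hs hf
  have m := fun j => hP _ (h.fr s j y hy hs).1
  have k := h.fr_eval s S y hy hs
  have k0 := k.2.trans_ne h1
  have k1 : P.rd (aeval (nk s ξ) S) ≠ 0 := (rd_ne_iff (hP _ k.1)).2
    ⟨fun e => k0 (e ▸ a.M.val_zero _), Pl.ord_unit _ (hP _ k.1) (hP _ (a.M.inv_mem k.1 k0))⟩
  have k2 : ∀ p : MvPolynomial V.J ℂ, P.rd (aeval (nk s ξ) p) ∈ fl V.π fun j => P.rd (nk s ξ j) :=
    fun p => by
      rw [(rd_aeval m p).2, (h.rd hy hs hP).2]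
      exact IntermediateField.algebra_adjoin_le_adjoin ℂ _
        ((Algebra.adjoin_range_eq_range_aeval ℂ _).ge ⟨p, rfl⟩)
  rw [← mul_div_cancel_right₀ (P.rd f) k1, ← rd_mul' (hP _ hf) (hP _ k.1), h2]
  exact div_mem (k2 B) (k2 S)

/-- The residue field of a prime divisor is generated by the reduction of the generic point. -/
theorem fl_top (h : a.At ξ) {P : Pl K} (hP : a.M.Pr P.toPlace) {ζ : V.J → P.κ}
    (hζ : Rd V.π P ξ ζ) : fl V.π ζ = ⊤ := by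
  obtain ⟨x, t, ht⟩ := hP
  obtain ⟨y, hy, rfl⟩ := a.exists_pt x
  obtain ⟨s, hs⟩ := exists_in hy
  rw [(hζ.uniq (h.rd hy hs ht.le).1).fl, eq_top_iff]
  intro u _
  obtain ⟨f, hf, rfl⟩ := Bm.rd_surj P u
  obtain ⟨b, b1, b0, b2, b3⟩ := ht.loc f hf
  rw [← mul_div_cancel_left₀ (P.rd f) ((rd_ne_iff (ht.le _ b1)).2 ⟨b0, b2⟩),
    ← rd_mul' (ht.le _ b1) hf]
  exact div_mem (h.rd_mem hy hs ht.le b3) (h.rd_mem hy hs ht.le b1)

theorem on_of_pr (h : a.At ξ) {P : Pl K} (hP : Nc.Pr V.π ξ P) {x : a.M.F}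
    (hx : a.M.Ct x P.toPlace) : a.M.On x P.toPlace := by
  cases n with
  | zero => exact (Bm.no_pl (Bm.ff a.proj) P).elim
  | succ n =>
    obtain ⟨y, hy, rfl⟩ := a.exists_pt x
    obtain ⟨s, hs⟩ := exists_in hy
    have k := h.rd hy hs hx
    have k1 := k.1.pr.1 hP
    rw [k.2] at k1
    have : Algebra.IsAlgebraic (Algebra.adjoin ℂ (range fun j => P.rd (nk s ξ j))) P.κ :=
      ⟨fun u => IntermediateField.isAlgebraic_adjoin_iff.1 (k1.isAlgebraic u)⟩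
    obtain ⟨t, t1, t2⟩ := exists_isTranscendenceBasis_subset (R := ℂ)
      (range fun j => P.rd (nk s ξ j))
    obtain ⟨e⟩ := Cardinal.eq.1 ((Cardinal.mk_fin n).trans
      (t2.cardinalMk_eq_trdeg.trans (Bm.trdeg_κ (Bm.ff a.proj) P)).symm)
    choose j hj using fun i => t1 (e i).2
    exact Bm.on_of_ai a.proj hx (fun i => (h.fr s (j i) y hy hs).1)
      ((funext hj).symm ▸ (t2.comp_equiv e).1)

/-- **Prime divisors.** -/
theorem pr_iff (h : a.At ξ) {P : Pl K} : Nc.Pr V.π ξ P ↔ a.M.Pr P.toPlace :=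
  ⟨fun k => (Bm.ct a.proj P).imp fun _ => h.on_of_pr k, fun k =>
    let ⟨ζ, e⟩ := Rd.ex h.nz P
    ⟨ζ, e, h.fl_top k e ▸ ⟨fun u => isAlgebraic_algebraMap (⟨u, trivial⟩ :
      (⊤ : IntermediateField ℂ P.κ))⟩⟩⟩

/-- The centre of a place is the closure of the reduction of the generic point. -/
theorem ct_iff (h : a.At ξ) (hy : y ∈ V.A) {P : Pl K} {ζ : V.J → P.κ} (hζ : Rd V.π P ξ ζ) :
    a.M.Ct (a.pt y) P.toPlace ↔
      ∀ δ g, WHom (bw V.π) δ g → aeval ζ g = 0 → eval y g = 0 := by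
  refine ⟨fun hP δ g hg e => by_contra fun u => ?_, fun k f hf => ?_⟩
  · obtain ⟨s, hs⟩ := exists_in hy
    obtain ⟨c, -, e'⟩ := (hζ.uniq (h.rd hy hs hP).1).aeval hg
    have k := h.fr_eval s g y hy hs
    have k0 := k.2.trans_ne (((Sec.eval hg).nm_ne hs hy).2 u)
    rw [e, mul_zero, ← (rd_aeval (fun j => hP _ (h.fr s j y hy hs).1) g).2] at e'
    exact (rd_ne_iff (hP _ k.1)).2 ⟨fun e => k0 (e ▸ a.M.val_zero _),
      Pl.ord_unit _ (hP _ k.1) (hP _ (a.M.inv_mem k.1 k0))⟩ e'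
  · obtain ⟨-, x, b, c⟩ := hζ
    obtain ⟨δ, A, B, a1, a2, a3, rfl⟩ := (h.sim b).loc hy hf
    have m := fun g => rd_aeval (fun j => (c j).1) g
    have k1 := (rd_ne_iff (m B).1).1 fun e => a3 (k δ B a2 (by
      rw [funext fun j => (c j).2, ← (m B).2, e]))
    exact div_eq_mul_inv (aeval x A) _ ▸ mul_mem (m A).1 ((Pl.ord_eq_zero_iff _ k1.1).1 k1.2).2

open Classical in
/-- The hyperplane class of a variety with one block. -/
theorem lam (h : a.At ξ) (hR : ∀ r r' : V.R, r = r') (hj : ∃ j, ξ j ≠ 0) :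
    ∃ D, a.M.Dv D ∧ IsInt D ∧ a.M.Amp D ∧ (∀ x, a.M.Free D x) ∧
      mx (Finset.univ.image ξ) = Ba.bar a.M D ∧
      ∀ j D', a.IsDiv (fun y => y j) D' → D' = D + a.M.div (ξ j) := by
  obtain ⟨j, hj⟩ := hj
  obtain ⟨D, hD⟩ := a.exists_div (Sec.crd j) ((h.ne j).1 hj)
  have h1 : ∀ i D', a.IsDiv (fun y => y i) D' → D' = D + a.M.div (ξ j)⁻¹ + a.M.div (ξ i) :=
    fun i D' k => by
      rw [(k.eq hD (Sec.crd i) (hR (V.π j) (V.π i) ▸ Sec.crd j) (h.is i j (hR _ _))).2, add_assoc,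
        ← div_mul a.loc (inv_ne_zero hj) ((h.ne i).2 (k.exists_ne (Sec.crd i))), div_eq_inv_mul]
  have h2 : ∀ i, ξ i ∈ a.M.H0 (D + a.M.div (ξ j)⁻¹) := fun i => by
    by_cases e : ξ i = 0
    · exact e ▸ zero_mem _
    obtain ⟨D', k⟩ := a.exists_div (Sec.crd i) ((h.ne i).1 e)
    exact mem_H0_div a.loc (by rw [add_comm, ← h1 i D' k]; exact k.nonneg)
  have h3 : ∀ x, ∃ i, ξ i ≠ 0 ∧ ∀ Q, a.M.On x Q →
      (Q.ord (ξ i) : ℝ) + (D + a.M.div (ξ j)⁻¹) Q = 0 := fun x => by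
    obtain ⟨y, hy, rfl⟩ := a.exists_pt x
    obtain ⟨i, -, hi⟩ := V.pv.sub hy (V.π j)
    obtain ⟨D', k⟩ := a.exists_div (Sec.crd i) ⟨y, hy, hi⟩
    refine ⟨i, (h.ne i).2 ⟨y, hy, hi⟩, fun Q hQ => ?_⟩
    rw [← k.zero (Sec.crd i) hy hi hQ, h1 i D' k, Finsupp.add_apply _ (a.M.div (ξ i)),
      div_apply a.loc _ ⟨_, hQ⟩, add_comm]
  refine ⟨_, dv_add hD.1 (FI.dv_div _), FI.IsInt.add hD.int (int_div a.loc _),
    a.pos.div _ _ (inv_ne_zero hj) (hD.amp (Sec.crd j) fun r => by simp [hR r (V.π j)]),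
    fun x => let ⟨i, k⟩ := h3 x; ⟨_, h2 i, k⟩, Ba.mx_free a.proj (fun f hf => ?_) fun x => ?_, h1⟩
  · obtain ⟨i, -, rfl⟩ := Finset.mem_image.1 hf
    exact h2 i
  · obtain ⟨i, k⟩ := h3 x
    exact ⟨_, Finset.mem_image_of_mem _ (Finset.mem_univ i), k⟩

end At

end Vm

end Vale.Agent.P287D.Br
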