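import Vale.Agent.P287D.Br.Loc
import Vale.Agent.P287D.Nc.Gpd
import Vale.Agent.P287D.Tw.Map
import Vale.Agent.P287D.Bm.Dom

/-!
# P287D, block BR: projections of varieties and maps of function fields
-/

open Set Filter Topology MvPolynomial
open Vale.Agent.P287Q Vale.Agent.P277Z Vale.Agent.P277Z.FI Vale.Agent.P297Z
open Vale.Agent.P287D.Nc

noncomputable section

namespace Vale.Agent.P287D.Br

variable {n m : ℕ} {K L : Type} [Field K] [Algebra ℂ K] [Field L] [Algebra ℂ L]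

section hom

variable {X : Var n} {Y : Var m} {p : P287Q.Ext Y X} {a : Vm X K} {b : Vm Y L} {ζ : X.J → K}
  {ξ : Y.J → L} {φ : K →ₐ[ℂ] L} {δ : X.R → ℤ} {A B : MvPolynomial X.J ℂ}

theorem pt_map (h : Pt X ζ) (φ : K →ₐ[ℂ] L) : Pt X (φ ∘ ζ) :=
  ⟨fun r => (h.nz r).imp fun _ k => ⟨k.1, (_root_.map_ne_zero φ).2 k.2⟩, fun δ g k l => by
    rw [Function.comp_def, ← comp_aeval_apply, h.van δ g k l, map_zero]⟩

theorem Vm.At.is_pb (k : b.At ξ) (p : P287Q.Ext Y X) (hA : WHom (bw X.π) δ A)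
    (hB : WHom (bw X.π) δ B) : b.Is (aeval (ξ ∘ p.iJ) A / aeval (ξ ∘ p.iJ) B)
      (fun y => eval (y ∘ p.iJ) A) fun y => eval (y ∘ p.iJ) B := by
  simpa only [aeval_rename, eval_rename] using
    k.is_eval (Sp.whom_rename p.blk hA) (Sp.whom_rename p.blk hB)

theorem sec_pb (p : P287Q.Ext Y X) (hA : WHom (bw X.π) δ A) :
    ∃ d, Sec Y d fun y => eval (y ∘ p.iJ) A :=
  ⟨_, by simpa only [eval_rename] using Sec.eval (Sp.whom_rename p.blk hA)⟩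

/-- A map of fields which respects the generic points is the pull back of functions. -/
theorem hom (h : a.At ζ) (k : b.At ξ) (e : Sim X.π (φ ∘ ζ) (ξ ∘ p.iJ)) (f : K) :
    Rstr p b a f (φ f) := fun y hy hf => by
  obtain ⟨δ, A, B, a1, a2, a3, rfl⟩ := h.loc (p.map y hy) hf
  obtain ⟨t, t0, ht⟩ := e
  have := k.is_pb p a1 a2 y hy a3
  rw [funext ht, aeval_scl t0 a1, aeval_scl t0 a2,
    mul_div_mul_left _ _ (Finset.prod_ne_zero_iff.2 fun r _ => zpow_ne_zero _ (t0 r))] at this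
  rw [(h.is_eval a1 a2 _ (p.map y hy) a3).2, map_div₀, comp_aeval_apply, comp_aeval_apply]
  exact this

theorem exists_bhom (h : ∀ f, Rstr p b a f (φ f)) :
    ∃ μ : Bm.Hom b.M a.M φ, ∀ y ∈ Y.A, μ.g (b.q y) = a.q (y ∘ p.iJ) := by
  obtain ⟨μ⟩ := Bm.hom_of_le (M' := b.M) (M := a.M) (φ := φ) fun x => by
    obtain ⟨y, hy, rfl⟩ := b.exists_pt x
    exact ⟨_, fun f hf => (h f y hy hf).1⟩
  exact ⟨μ, fun y hy => μ.uniq a.proj (y := b.pt y) (x := a.pt _) fun f hf => (h f y hy hf).1⟩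

theorem surj_of (h : ∀ f, Rstr p b a f (φ f)) : ∀ x ∈ X.A, ∃ y ∈ Y.A, Orb X.π (y ∘ p.iJ) x := by
  intro x hx
  obtain ⟨μ, e⟩ := exists_bhom h
  obtain ⟨w, hw, u⟩ := (μ.img a.proj b.proj).ge (a.pt x).2
  obtain ⟨y, hy, v⟩ := b.exists_pt ⟨w, hw⟩
  obtain rfl : b.q y = w := congrArg Subtype.val v
  exact ⟨y, hy, (a.qm.eq_iff _ (p.map y hy) _ hx).1 ((e y hy).symm.trans u)⟩

/-- the converse of `hom` -/
theorem sim_of (h : a.At ζ) (k : b.At ξ) (r : ∀ f, Rstr p b a f (φ f)) :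
    Sim X.π (φ ∘ ζ) (ξ ∘ p.iJ) := by
  have ne : ∀ j, ζ j = 0 ↔ ξ (p.iJ j) = 0 := fun j => by
    refine not_iff_not.1 ((h.ne j).trans (.trans ⟨fun ⟨x, hx, u⟩ => ?_,
      fun ⟨y, hy, u⟩ => ⟨_, p.map y hy, u⟩⟩ (k.ne _).symm))
    obtain ⟨y, hy, t, -, rfl⟩ := surj_of r x hx
    exact ⟨y, hy, right_ne_zero_of_mul u⟩
  refine Pa.sim_of (pt_map h.gq.toPt φ).nz (ptx _ _ _ _ p _ _ k.gq.toPt).nz fun j j' e => ?_
  by_cases u : ζ j' = 0
  · simp [u, (ne j').1 u]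
  have u' := mt (ne j').2 u
  have := Vm.Is.uniq (G := fun y => y (p.iJ j)) (f := φ (ζ j / ζ j')) (fun y hy v => by
      have w := h.is j j' e _ (p.map y hy) v
      exact ⟨(r _ y hy w.1).1, (r _ y hy w.1).2.trans w.2⟩)
    (k.is _ _ (by rw [p.blk, p.blk, e])) (Sec.crd _) ((k.ne _).1 u')
  rw [map_div₀, div_eq_div_iff ((_root_.map_ne_zero φ).2 u) u', mul_comm (ξ _)] at this
  exact this

theorem res : RES := fun _ Y K _ _ a m Z p L _ _ z f ⟨y, hy, hf⟩ => by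
  obtain ⟨ζ, h⟩ := a.exists_at
  obtain ⟨ξ, k⟩ := z.exists_at
  obtain ⟨δ, A, B, a1, a2, a3, rfl⟩ := h.loc (p.map y hy) hf
  obtain ⟨d, hd⟩ := sec_pb p a2
  have nz : ∀ {w δ' B'}, w ∈ Z.A → WHom (bw Y.π) δ' B' → eval (w ∘ p.iJ) B' ≠ 0 →
      aeval ζ B' ≠ 0 ∧ aeval (ξ ∘ p.iJ) B' ≠ 0 := fun hw c1 c2 =>
    ⟨fun e => c2 (h.gq.gen _ _ c1 e _ (p.map _ hw)), fun e => c2 (by
      simpa only [eval_rename] using
        k.gq.gen _ _ (Sp.whom_rename p.blk c1) ((aeval_rename _ _ _).trans e) _ hw)⟩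
  refine ⟨aeval (ξ ∘ p.iJ) A / aeval (ξ ∘ p.iJ) B, fun w hw hf' => ?_, fun g hg =>
    Vm.Is.uniq (fun w hw v => ?_) (k.is_pb p a1 a2) hd ⟨y, hy, a3⟩⟩
  · obtain ⟨δ', A', B', b1, b2, b3, e⟩ := h.loc (p.map w hw) hf'
    have c := whom_iff.2 (((whom_iff.1 a1).mul (whom_iff.1 b2)).sub
      (add_comm δ' δ ▸ (whom_iff.1 b1).mul (whom_iff.1 a2)))
    have e1 := (ptx _ _ _ _ p _ _ k.gq.toPt).van _ _ c (h.gq.gen _ _ c (by
      rw [map_sub, map_mul, map_mul, sub_eq_zero]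
      exact (div_eq_div_iff (nz hy a2 a3).1 (nz hw b2 b3).1).1 e))
    rw [map_sub, map_mul, map_mul, sub_eq_zero,
      ← div_eq_div_iff (nz hy a2 a3).2 (nz hw b2 b3).2] at e1
    rw [e1, e, (h.is_eval b1 b2 _ (p.map w hw) b3).2]
    exact k.is_pb p b1 b2 w hw b3
  · have u := h.is_eval a1 a2 _ (p.map w hw) v
    exact ⟨(hg w hw u.1).1, (hg w hw u.1).2.trans u.2⟩

end hom

section ovr

variable {X Y Z : Var n} {p : P287Q.Ext Y X} {a : Vm X K} {b : Vm Y K} {ζ : X.J → K} {ξ : Y.J → K}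

theorem over_iff : Over p b a ↔ ∀ f, Rstr p b a f f := by
  refine ⟨fun ⟨μ, o⟩ f y hy hf => ?_, fun h => ?_⟩
  · have k := (Bm.Hom.ofMod a.proj b.proj μ).le (b.pt y) (a.pt _) (o y hy)
    exact ⟨k f hf, Bm.val_of_le k hf⟩
  · obtain ⟨μ, e⟩ := exists_bhom (φ := AlgHom.id ℂ K) h
    exact ⟨μ.mod a.proj b.proj, e⟩

theorem over_of (h : a.At ζ) (k : b.At ξ) (e : Sim X.π ζ (ξ ∘ p.iJ)) : Over p b a :=
  over_iff.2 (hom (φ := AlgHom.id ℂ K) h k e)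

theorem Over.sim (o : Over p b a) (h : a.At ζ) (k : b.At ξ) : Sim X.π ζ (ξ ∘ p.iJ) :=
  sim_of (φ := AlgHom.id ℂ K) h k (over_iff.1 o)

theorem Over.at (o : Over p b a) (k : b.At ξ) : a.At (ξ ∘ p.iJ) :=
  let ⟨_, h⟩ := a.exists_at
  h.sim (o.sim h k)

theorem Over.mod (o : Over p b a) : Nonempty (Mod b.M a.M) := ⟨o.choose⟩

theorem over_refl (a : Vm X K) : Over (.refl X) a a :=
  let ⟨_, h⟩ := a.exists_at
  over_of h h (.refl _ _)

theorem Over.comp {q : P287Q.Ext Z Y} {c : Vm Z K} (o : Over p b a) (o' : Over q c b) :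
    Over (q.comp p) c a :=
  let ⟨_, h⟩ := c.exists_at
  over_of (o.at (o'.at h)) h (.refl _ _)

end ovr

theorem down : DOWN := fun _ _ _ _ _ b _ p hp =>
  let ⟨_, k⟩ := b.exists_at
  let ⟨a, h⟩ := vm (gpd _ _ _ p _ _ k.gp hp)
  ⟨a, over_of h k (.refl _ _)⟩

theorem up : UP := fun n X K _ _ a Y p hp => by
  obtain ⟨K', _, _, ⟨b⟩⟩ := ex n Y
  obtain ⟨c, o⟩ := down n Y K' b X p hp
  obtain ⟨ζ, h⟩ := a.exists_at
  obtain ⟨ζ', h'⟩ := c.exists_at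
  obtain ⟨e, he⟩ := exists_gp_iso h.gp h'.gp
  refine ⟨b.tr e, over_iff.2 fun f => ?_⟩
  have r := hom (p := .refl X) (φ := (e : K →ₐ[ℂ] K')) h h' (Pa.sim_of (pt_map h.gq.toPt _).nz h'.nz
    fun j j' u => ?_) f
  · exact fun y hy hf =>
      let k := r _ (p.map y hy) hf
      let l := over_iff.1 o _ y hy k.1
      ⟨l.1, l.2.trans k.2⟩
  · by_cases v : ζ j' = 0
    · have v' : ζ' j' = 0 := not_not.1 (mt ((h.ne j').trans (h'.ne j').symm).2 (not_not.2 v))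
      exact (mul_eq_zero_of_right _ v').trans
        (mul_eq_zero_of_left ((congrArg e v).trans (map_zero _)) _).symm
    have := he j j' u
    rw [map_div₀, div_eq_div_iff ((_root_.map_ne_zero e).2 v) ((h'.ne _).2 ((h.ne _).1 v)),
      mul_comm (ζ' _)] at this
    exact this

/-- **HOM**: every map of function fields comes from a projection of a birational model. -/
theorem exists_hom {V : Var n} {Y : Var m} (a : Vm V L) (a₀ : Vm Y K) (φ : K →ₐ[ℂ] L) :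
    ∃ (Γ : Var n) (q : P287Q.Ext Γ V) (p : P287Q.Ext Γ Y) (b : Vm Γ L),
      q.Bir ∧ Over q b a ∧ ∀ f, Rstr p b a₀ f (φ f) := by
  obtain ⟨ξ, h⟩ := a.exists_at
  obtain ⟨ζ, k⟩ := a₀.exists_at
  obtain ⟨r⟩ := Tw.map _ _ V Y L ξ _ h.gp (pt_map k.gq.toPt φ)
  obtain ⟨b, l⟩ := vm r.gp
  exact ⟨r.Γ, r.q.comp r.t.dn, r.p, b, r.bir.comp (Tw.dn_bir r.t), over_of h l r.sq, hom k l r.sp⟩

end Vale.Agent.P287D.Br
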